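import Mathlib.RingTheory.AdicCompletion.Basic
import Mathlib.RingTheory.KrullDimension.Basic
import Mathlib.RingTheory.IntegralClosure.IntegrallyClosed
import Mathlib.RingTheory.LocalRing.MaximalIdeal.Basic
import Mathlib.RingTheory.Regular.RegularSequence

/-!
# P190: complete local domains without small Cohen-Macaulay modules
-/

namespace Vale.Agent.P190.H455

universe v

/-- The local ring `R` is a complete Noetherian normal local domain of Krull dimension `d` all of
whose finitely generated modules have depth less than `d` (so `R` has no small Cohen-Macaulay
module); moreover every finitely generated module over a local ring `T` that is a module-finite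
`R`-algebra has depth less than `d`. -/
structure IsCounterexample (R : Type) [CommRing R] [IsLocalRing R] (d : ℕ) : Prop where
  isDomain : IsDomain R
  isNoetherianRing : IsNoetherianRing R
  isIntegrallyClosed : IsIntegrallyClosed R
  isAdicComplete : IsAdicComplete (IsLocalRing.maximalIdeal R) R
  ringKrullDim_eq : ringKrullDim R = (d : ℕ)
  /-- every `M`-regular sequence in the maximal ideal of `R` has length less than `d = dim R` -/
  depth_lt : ∀ (M : Type v) [AddCommGroup M] [Module R M] [Module.Finite R M] (rs : List R),
    (∀ r ∈ rs, r ∈ IsLocalRing.maximalIdeal R) →
    RingTheory.Sequence.IsRegular M rs → rs.length < d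
  /-- the same over every local ring that is a module-finite `R`-algebra -/
  depth_lt_of_finite : ∀ (T : Type) [CommRing T] [IsLocalRing T] [Algebra R T]
    [Module.Finite R T] (M : Type v) [AddCommGroup M] [Module T M] [Module.Finite T M]
    (rs : List T), (∀ r ∈ rs, r ∈ IsLocalRing.maximalIdeal T) →
    RingTheory.Sequence.IsRegular M rs → rs.length < d

end Vale.Agent.P190.H455
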