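import Vale.Agent.P190.H455.Base

/-!
# P190: power series rings over a field or over a complete discrete valuation ring are complete
regular local rings
-/

set_option autoImplicit false

namespace Vale.Agent.P190.H455

open Vale.Agent.P190 Vale.Agent.P190.D IsLocalRing RingTheory.Sequence
open scoped Pointwise

/-- The properties of a complete regular local ring that are used. -/
structure GoodBase (B : Type) [CommRing B] (n : ℕ) : Prop where
  dom : IsDomain B
  loc : IsLocalRing B
  noeth : IsNoetherianRing B
  arch : ArchDiv B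
  complete : IsAdicComplete (maximalIdeal B) B
  par : ∃ xs : List B, xs.length = n ∧ IsPar B xs

section PS

variable {D : Type} [CommRing D] [IsLocalRing D]

theorem mem_maximalIdeal_ps [IsLocalRing (PowerSeries D)] (f : PowerSeries D) :
    f ∈ maximalIdeal (PowerSeries D) ↔ PowerSeries.constantCoeff f ∈ maximalIdeal D := by
  rw [IsLocalRing.mem_maximalIdeal, mem_nonunits_iff, IsLocalRing.mem_maximalIdeal,
    mem_nonunits_iff, PowerSeries.isUnit_iff_constantCoeff]

/-- the filtration -/
def fil (D : Type) [CommRing D] [IsLocalRing D] (n : ℕ) : Ideal (PowerSeries D) where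
  carrier := {f | ∀ i, PowerSeries.coeff i f ∈ maximalIdeal D ^ (n - i)}
  zero_mem' := fun i => by rw [map_zero]; exact zero_mem _
  add_mem' := fun {a b} ha hb i => by rw [map_add]; exact add_mem (ha i) (hb i)
  smul_mem' := fun c f hf i => by
    rw [smul_eq_mul, PowerSeries.coeff_mul]
    refine Ideal.sum_mem _ fun p hp => ?_
    rw [Finset.mem_antidiagonal] at hp
    refine Ideal.mul_mem_left _ _ (Ideal.pow_le_pow_right ?_ (hf p.2))
    omega

theorem mem_fil {n : ℕ} {f : PowerSeries D} :
    f ∈ fil D n ↔ ∀ i, PowerSeries.coeff i f ∈ maximalIdeal D ^ (n - i) := Iff.rfl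

theorem fil_mul (a b : ℕ) : fil D a * fil D b ≤ fil D (a + b) := by
  rw [Ideal.mul_le]
  intro f hf g hg i
  rw [PowerSeries.coeff_mul]
  refine Ideal.sum_mem _ fun p hp => ?_
  rw [Finset.mem_antidiagonal] at hp
  have h1 := Ideal.mul_mem_mul (hf p.1) (hg p.2)
  rw [← pow_add] at h1
  refine Ideal.pow_le_pow_right ?_ h1
  omega

variable [IsLocalRing (PowerSeries D)]

theorem pow_le_fil (n : ℕ) : maximalIdeal (PowerSeries D) ^ n ≤ fil D n := by
  induction n with
  | zero =>
    intro f _ i
    rw [Nat.zero_sub, pow_zero, Ideal.one_eq_top]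
    trivial
  | succ n ih =>
    rw [pow_succ]
    refine (Ideal.mul_mono ih ?_).trans (fil_mul n 1)
    intro f hf i
    rcases Nat.eq_zero_or_pos i with rfl | hi
    · rw [Nat.sub_zero, pow_one, PowerSeries.coeff_zero_eq_constantCoeff]
      exact (mem_maximalIdeal_ps f).1 hf
    · rw [show 1 - i = 0 by omega, pow_zero, Ideal.one_eq_top]
      trivial

theorem C_mem_pow (n : ℕ) (a : D) (ha : a ∈ maximalIdeal D ^ n) :
    PowerSeries.C a ∈ maximalIdeal (PowerSeries D) ^ n := by
  have h1 : (maximalIdeal D).map (PowerSeries.C (R := D)) ≤ maximalIdeal (PowerSeries D) := by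
    rw [Ideal.map_le_iff_le_comap]
    intro x hx
    rw [Ideal.mem_comap, mem_maximalIdeal_ps, PowerSeries.constantCoeff_C]
    exact hx
  refine Ideal.pow_right_mono h1 n ?_
  rw [← Ideal.map_pow]
  exact Ideal.mem_map_of_mem _ ha

theorem fil_le_pow (n : ℕ) : fil D n ≤ maximalIdeal (PowerSeries D) ^ n := by
  induction n with
  | zero => rw [pow_zero, Ideal.one_eq_top]; exact le_top
  | succ n ih =>
    intro f hf
    rw [PowerSeries.eq_X_mul_shift_add_const f]
    refine Ideal.add_mem _ ?_ ?_
    · rw [pow_succ']
      refine Ideal.mul_mem_mul ?_ (ih ?_)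
      · rw [mem_maximalIdeal_ps, PowerSeries.constantCoeff_X]
        exact zero_mem _
      · intro i
        rw [PowerSeries.coeff_mk]
        have := hf (i + 1)
        rwa [show n + 1 - (i + 1) = n - i by omega] at this
    · refine C_mem_pow _ _ ?_
      have := hf 0
      rwa [Nat.sub_zero, PowerSeries.coeff_zero_eq_constantCoeff] at this

theorem isAdicComplete_powerSeries [IsNoetherianRing D] [IsNoetherianRing (PowerSeries D)]
    (h : IsAdicComplete (maximalIdeal D) D) :
    IsAdicComplete (maximalIdeal (PowerSeries D)) (PowerSeries D) := by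
  refine { prec' := ?_ }
  intro f hf
  have h1 : ∀ {m n : ℕ}, m ≤ n → f m - f n ∈ fil D m := by
    intro m n hmn
    have := SModEq.sub_mem.mp (hf hmn)
    rw [smul_eq_mul, Ideal.mul_top] at this
    exact pow_le_fil m this
  have h2 : ∀ i, ∃ L : D, ∀ n, PowerSeries.coeff i (f (n + i)) - L ∈ maximalIdeal D ^ n := by
    intro i
    obtain ⟨L, hL⟩ := h.prec' (fun n => PowerSeries.coeff i (f (n + i))) (by
      intro m n hmn
      rw [SModEq.sub_mem, smul_eq_mul, Ideal.mul_top, ← map_sub]
      have := h1 (show m + i ≤ n + i by omega) i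
      rwa [Nat.add_sub_cancel] at this)
    refine ⟨L, fun n => ?_⟩
    have := SModEq.sub_mem.mp (hL n)
    rwa [smul_eq_mul, Ideal.mul_top] at this
  choose L hL using h2
  refine ⟨PowerSeries.mk L, fun n => ?_⟩
  rw [SModEq.sub_mem, smul_eq_mul, Ideal.mul_top]
  refine fil_le_pow n ?_
  intro i
  rw [map_sub, PowerSeries.coeff_mk]
  rcases le_or_gt i n with hi | hi
  · have := hL i (n - i)
    rwa [Nat.sub_add_cancel hi] at this
  · rw [show n - i = 0 by omega, pow_zero, Ideal.one_eq_top]
    trivial

theorem ofList_map {A A' : Type} [CommRing A] [CommRing A'] (f : A →+* A') (xs : List A) :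
    Ideal.ofList (xs.map f) = (Ideal.ofList xs).map f := by
  unfold Ideal.ofList
  rw [Ideal.map_span]
  congr 1
  ext y
  simp only [List.mem_map, Set.mem_ofPred_eq, Set.mem_image]

theorem isPar_powerSeries {xs : List D} (h : IsPar D xs) :
    IsPar (PowerSeries D) (PowerSeries.X :: xs.map (algebraMap D (PowerSeries D))) where
  reg := by
    rw [isWeaklyRegular_cons_iff]
    refine ⟨?_, ?_⟩
    · intro a b hab
      simp only [smul_eq_mul] at hab
      exact PowerSeries.X_mul_inj.1 hab
    · let _ : Module (PowerSeries D) D := Module.compHom D (PowerSeries.constantCoeff (R := D))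
      have hst : IsScalarTower D (PowerSeries D) D := ⟨fun a f x => by
        change PowerSeries.constantCoeff (a • f) * x = a * (PowerSeries.constantCoeff f * x)
        rw [← PowerSeries.coeff_zero_eq_constantCoeff_apply, PowerSeries.coeff_smul,
          PowerSeries.coeff_zero_eq_constantCoeff_apply, smul_eq_mul, mul_assoc]⟩
      let g : PowerSeries D →ₗ[PowerSeries D] D :=
        { toFun := PowerSeries.constantCoeff (R := D)
          map_add' := map_add _
          map_smul' := fun a b => map_mul _ a b }
      have hg : ∀ f, g f = PowerSeries.constantCoeff f := fun f => rfl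
      have hsurj : Function.Surjective g := fun a => ⟨PowerSeries.C a, by
        rw [hg, PowerSeries.constantCoeff_C]⟩
      have hker : ((PowerSeries.X : PowerSeries D) • (⊤ : Submodule (PowerSeries D) (PowerSeries D)))
          = LinearMap.ker g := by
        ext f
        rw [LinearMap.mem_ker, hg, ← PowerSeries.X_dvd_iff]
        constructor
        · intro hf
          obtain ⟨y, -, rfl⟩ := hf
          exact ⟨y, rfl⟩
        · rintro ⟨y, rfl⟩
          exact ⟨y, trivial, rfl⟩
      let e : QuotSMulTop (PowerSeries.X : PowerSeries D) (PowerSeries D) ≃ₗ[PowerSeries D] D :=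
        (Submodule.quotEquivOfEq _ _ hker).trans (g.quotKerEquivOfSurjective hsurj)
      rw [LinearEquiv.isWeaklyRegular_congr e, isWeaklyRegular_map_algebraMap_iff]
      exact h.reg
  gen := by
    rw [Ideal.ofList_cons, ofList_map, h.gen]
    apply le_antisymm
    · rw [sup_le_iff, Ideal.span_singleton_le_iff_mem, Ideal.map_le_iff_le_comap]
      constructor
      · rw [mem_maximalIdeal_ps, PowerSeries.constantCoeff_X]
        exact zero_mem _
      · intro x hx
        rw [Ideal.mem_comap, mem_maximalIdeal_ps]
        exact hx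
    · intro f hf
      rw [PowerSeries.eq_X_mul_shift_add_const f]
      refine Ideal.add_mem _ ?_ ?_
      · exact Ideal.mem_sup_left (Ideal.mul_mem_right _ _ (Ideal.mem_span_singleton_self _))
      · refine Ideal.mem_sup_right (Ideal.mem_map_of_mem (algebraMap D (PowerSeries D)) ?_)
        exact (mem_maximalIdeal_ps f).1 hf

end PS

theorem GoodBase.powerSeries {D : Type} [CommRing D] {n : ℕ} (h : GoodBase D n) :
    GoodBase (PowerSeries D) (n + 1) := by
  have := h.dom
  have := h.loc
  have := h.noeth
  have hdom : IsDomain (PowerSeries D) := inferInstance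
  have hloc : IsLocalRing (PowerSeries D) := inferInstance
  have hno : IsNoetherianRing (PowerSeries D) := inferInstance
  obtain ⟨xs, hxs, hpar⟩ := h.par
  exact
    { dom := hdom
      loc := hloc
      noeth := hno
      arch := archDiv_powerSeries h.arch
      complete := isAdicComplete_powerSeries h.complete
      par := ⟨_, by rw [List.length_cons, List.length_map, hxs], isPar_powerSeries hpar⟩ }

theorem GoodBase.of_ringEquiv {B B' : Type} [CommRing B] [CommRing B'] (e : B ≃+* B') {n : ℕ}
    (h : GoodBase B n) : GoodBase B' n := by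
  have := h.dom
  have := h.loc
  have := h.noeth
  have hdom : IsDomain B' := e.symm.toMulEquiv.isDomain B
  have hloc : IsLocalRing B' := e.isLocalRing
  have hno : IsNoetherianRing B' := isNoetherianRing_of_ringEquiv B e
  let _ : Algebra B B' := (e : B →+* B').toAlgebra
  have he : ∀ x, algebraMap B B' x = e x := fun x => rfl
  have hfin : Module.Finite B B' := Module.Finite.of_surjective
    (Algebra.linearMap B B') e.surjective
  obtain ⟨xs, hxs, hpar⟩ := h.par
  exact
    { dom := hdom
      loc := hloc
      noeth := hno
      arch := archDiv_of_ringEquiv e h.arch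
      complete := isAdicComplete_of_finite_local (A := B) h.complete
      par := by
        refine ⟨xs.map (algebraMap B B'), by rw [List.length_map, hxs], ?_, ?_⟩
        · rw [isWeaklyRegular_map_algebraMap_iff]
          let e' : B ≃ₗ[B] B' := LinearEquiv.ofBijective (Algebra.linearMap B B') e.bijective
          rw [← LinearEquiv.isWeaklyRegular_congr e']
          exact hpar.reg
        · rw [ofList_map, hpar.gen]
          apply le_antisymm
          · rw [Ideal.map_le_iff_le_comap]
            intro x hx
            rw [Ideal.mem_comap, IsLocalRing.mem_maximalIdeal, mem_nonunits_iff] at *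
            intro hu
            apply hx
            have := hu.map (e.symm : B' →+* B)
            rwa [he, RingHom.coe_coe, RingEquiv.symm_apply_apply] at this
          · intro x hx
            have h1 : e.symm x ∈ maximalIdeal B := by
              rw [IsLocalRing.mem_maximalIdeal, mem_nonunits_iff] at *
              intro hu
              apply hx
              have := hu.map (e : B →+* B')
              rwa [RingHom.coe_coe, RingEquiv.apply_symm_apply] at this
            have h2 := Ideal.mem_map_of_mem (algebraMap B B') h1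
            rwa [he, RingEquiv.apply_symm_apply] at h2 }

/-- power series rings over a good base -/
theorem GoodBase.mvPowerSeries {V : Type} [CommRing V] {n : ℕ} (h : GoodBase V n) (m : ℕ) :
    GoodBase (MvPowerSeries (Fin m) V) (n + m) := by
  induction m with
  | zero =>
    exact h.of_ringEquiv (MvPowerSeries.isEmptyEquiv (Fin 0) V).toRingEquiv.symm
  | succ m ih =>
    exact ih.powerSeries.of_ringEquiv (MvPowerSeries.finSuccEquiv V m).toRingEquiv.symm

theorem goodBase_field (K : Type) [Field K] : GoodBase K 0 where
  dom := inferInstance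
  loc := inferInstance
  noeth := inferInstance
  arch := archDiv_of_field K
  complete := by
    rw [IsLocalRing.maximalIdeal_eq_bot]
    infer_instance
  par := ⟨[], rfl, IsWeaklyRegular.nil _ _, by
    rw [Ideal.ofList_nil, IsLocalRing.maximalIdeal_eq_bot]⟩

theorem archDiv_of_dvr (V : Type) [CommRing V] [IsDomain V] [IsDiscreteValuationRing V] :
    ArchDiv V := by
  intro a b c hc h
  by_cases hb : b = 0
  · have := h 1
    rw [pow_one, pow_one, hb, zero_dvd_iff, mul_eq_zero] at this
    rw [hb, this.resolve_left hc]
  by_cases ha : a = 0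
  · rw [ha]; exact dvd_zero b
  obtain ⟨α, hα⟩ := ENat.ne_top_iff_exists.1 (mt IsDiscreteValuationRing.addVal_eq_top_iff.1 ha)
  obtain ⟨β, hβ⟩ := ENat.ne_top_iff_exists.1 (mt IsDiscreteValuationRing.addVal_eq_top_iff.1 hb)
  obtain ⟨γ, hγ⟩ := ENat.ne_top_iff_exists.1 (mt IsDiscreteValuationRing.addVal_eq_top_iff.1 hc)
  have h1 : ∀ n : ℕ, n * β ≤ γ + n * α := by
    intro n
    have h2 := IsDiscreteValuationRing.addVal_le_iff_dvd.2 (h n)
    rw [IsDiscreteValuationRing.addVal_mul, IsDiscreteValuationRing.addVal_pow,
      IsDiscreteValuationRing.addVal_pow, ← hα, ← hβ, ← hγ, nsmul_eq_mul, nsmul_eq_mul] at h2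
    exact_mod_cast h2
  rw [← IsDiscreteValuationRing.addVal_le_iff_dvd, ← hα, ← hβ]
  by_contra hcon
  have h3 : α + 1 ≤ β := by
    rw [not_le] at hcon
    exact_mod_cast Order.add_one_le_of_lt hcon
  have h4 := h1 (γ + 1)
  nlinarith only [h3, h4, Nat.zero_le γ, Nat.mul_le_mul_left (γ + 1) h3]

theorem goodBase_dvr (V : Type) [CommRing V] [IsDomain V] [IsDiscreteValuationRing V]
    (hV : IsAdicComplete (maximalIdeal V) V) : GoodBase V 1 where
  dom := inferInstance
  loc := inferInstance
  noeth := inferInstance
  arch := archDiv_of_dvr V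
  complete := hV
  par := by
    obtain ⟨ϖ, hϖ⟩ := IsDiscreteValuationRing.exists_irreducible V
    refine ⟨[ϖ], rfl, ?_, ?_⟩
    · rw [isWeaklyRegular_cons_iff]
      refine ⟨?_, IsWeaklyRegular.nil _ _⟩
      intro a b hab
      exact mul_left_cancel₀ hϖ.ne_zero hab
    · rw [hϖ.maximalIdeal_eq]
      simp [Ideal.ofList_cons]

end Vale.Agent.P190.H455
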