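import Mathlib.NumberTheory.Padics.PadicIntegers
import Vale.Agent.P190.H455.Defs
import Vale.Agent.P190.H455.Series

/-!
# P190: complete normal local domains without small Cohen-Macaulay modules, over every field of
characteristic zero and over every complete discrete valuation ring of characteristic zero,
dominating any given module-finite extension domain
-/

set_option autoImplicit false

namespace Vale.Agent.P190.H455

open Vale.Agent.P190 Vale.Agent.P190.D IsLocalRing RingTheory.Sequence

universe v

/-- the counterexample, finite over a domain `E` that is finite over the power series ring over a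
good base -/
theorem good_main (V : Type) [CommRing V] [CharZero V] (e : ℕ) (hV : GoodBase V e)
    (n : ℕ) (hn : 3 ≤ n) (E : Type) [CommRing E] [IsDomain E]
    [Algebra (MvPowerSeries (Fin n) V) E] [Module.Finite (MvPowerSeries (Fin n) V) E]
    (hE : Function.Injective (algebraMap (MvPowerSeries (Fin n) V) E)) :
    ∃ (R : Type) (_ : CommRing R) (_ : IsLocalRing R) (_ : Algebra E R),
      Module.Finite E R ∧ Function.Injective (algebraMap E R) ∧
      IsCounterexample.{v} R (e + n) := by
  have hB := hV.mvPowerSeries n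
  have hVd := hV.dom
  have := hB.dom
  have := hB.loc
  have := hB.noeth
  have hic : IsIntegrallyClosed (MvPowerSeries (Fin n) V) :=
    isIntegrallyClosed_of_archDiv _ hB.arch
  have hcz : CharZero (MvPowerSeries (Fin n) V) :=
    charZero_of_injective_algebraMap (R := V) (by
      intro a b hab
      exact MvPowerSeries.C_injective (σ := Fin n) (R := V) hab)
  obtain ⟨xs, hxs, hpar⟩ := hB.par
  let F : Type := FractionRing V
  have hF : CharZero F := charZero_of_injective_algebraMap (IsFractionRing.injective V F)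
  let ε : Fin 3 ↪ Fin n := Fin.castLEEmb hn
  let π : MvPowerSeries (Fin n) V →+* MvPowerSeries (Fin 3) F :=
    (MvPowerSeries.map (σ := Fin 3) (algebraMap V F)).comp
      (MvPowerSeries.killCompl (R := V) ε).toRingHom
  have hπ : ∀ i, π (MvPowerSeries.X (ε i)) = MvPowerSeries.X i := by
    intro i
    change MvPowerSeries.map (σ := Fin 3) (algebraMap V F)
      (MvPowerSeries.killCompl (R := V) ε (MvPowerSeries.X (ε i))) = _
    rw [MvPowerSeries.killCompl_X, MvPowerSeries.map_X]
  obtain ⟨R, i1, i2, i3, i4, h1, h2, h3, h4, h5, h6, h7⟩ :=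
    main_base.{v} (MvPowerSeries (Fin n) V) hpar hB.complete F π
      (fun i => MvPowerSeries.X (ε i)) hπ E hE
  rw [hxs] at h6
  refine ⟨R, i1, i3, i4, h1, h2, i2, h3, h4, h5, h6, ?_, ?_⟩
  · intro M _ _ _ rs hrs hreg
    have := h7 R M rs hrs hreg
    rwa [hxs] at this
  · intro T _ _ _ _ M _ _ _ rs hrs hreg
    have := h7 T M rs hrs hreg
    rwa [hxs] at this

theorem main_field (K : Type) [Field K] [CharZero K] (d : ℕ) (hd : 3 ≤ d)
    (E : Type) [CommRing E] [IsDomain E]
    [Algebra (MvPowerSeries (Fin d) K) E] [Module.Finite (MvPowerSeries (Fin d) K) E]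
    (hE : Function.Injective (algebraMap (MvPowerSeries (Fin d) K) E)) :
    ∃ (R : Type) (_ : CommRing R) (_ : IsLocalRing R) (_ : Algebra E R),
      Module.Finite E R ∧ Function.Injective (algebraMap E R) ∧ IsCounterexample.{v} R d := by
  have h := good_main.{v} K 0 (goodBase_field K) d hd E hE
  rwa [Nat.zero_add] at h

theorem main_dvr (V : Type) [CommRing V] [IsDomain V] [IsDiscreteValuationRing V] [CharZero V]
    [IsAdicComplete (maximalIdeal V) V] (n : ℕ) (hn : 3 ≤ n) (E : Type) [CommRing E] [IsDomain E]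
    [Algebra (MvPowerSeries (Fin n) V) E] [Module.Finite (MvPowerSeries (Fin n) V) E]
    (hE : Function.Injective (algebraMap (MvPowerSeries (Fin n) V) E)) :
    ∃ (R : Type) (_ : CommRing R) (_ : IsLocalRing R) (_ : Algebra E R),
      Module.Finite E R ∧ Function.Injective (algebraMap E R) ∧
      IsCounterexample.{v} R (n + 1) := by
  have h := good_main.{v} V 1 (goodBase_dvr V inferInstance) n hn E hE
  rwa [Nat.add_comm] at h

theorem main_mixed (p : ℕ) (hp : p.Prime) (d : ℕ) (hd : 4 ≤ d) :
    ∃ (R : Type) (_ : CommRing R) (_ : IsLocalRing R), CharZero R ∧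
      CharP (ResidueField R) p ∧ IsCounterexample.{v} R d := by
  have : Fact p.Prime := ⟨hp⟩
  have hdom : IsDomain (MvPowerSeries (Fin (d - 1)) ℤ_[p]) :=
    ((goodBase_dvr ℤ_[p] inferInstance).mvPowerSeries (d - 1)).dom
  obtain ⟨R, i1, i2, i3, h1, h2, h3⟩ := main_dvr.{v} ℤ_[p] (d - 1) (by omega)
    (MvPowerSeries (Fin (d - 1)) ℤ_[p]) (fun _ _ h => h)
  rw [show d - 1 + 1 = d by omega] at h3
  let f : ℤ_[p] →+* R := (algebraMap (MvPowerSeries (Fin (d - 1)) ℤ_[p]) R).comp
    (MvPowerSeries.C (σ := Fin (d - 1)) (R := ℤ_[p]))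
  have hf : Function.Injective f := h2.comp (MvPowerSeries.C_injective (σ := Fin (d - 1)))
  have hint : Algebra.IsIntegral (MvPowerSeries (Fin (d - 1)) ℤ_[p]) R :=
    Algebra.IsIntegral.of_finite _ _
  have hmax : (maximalIdeal R).comap (algebraMap (MvPowerSeries (Fin (d - 1)) ℤ_[p]) R) =
      maximalIdeal (MvPowerSeries (Fin (d - 1)) ℤ_[p]) := by
    apply IsLocalRing.eq_maximalIdeal
    exact Ideal.isMaximal_comap_of_isIntegral_of_isMaximal (maximalIdeal R)
  have hpB : ((p : ℕ) : MvPowerSeries (Fin (d - 1)) ℤ_[p]) ∈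
      maximalIdeal (MvPowerSeries (Fin (d - 1)) ℤ_[p]) := by
    rw [IsLocalRing.mem_maximalIdeal, mem_nonunits_iff, MvPowerSeries.isUnit_iff_constantCoeff,
      map_natCast]
    exact PadicInt.prime_p.not_isUnit
  have hpR : ((p : ℕ) : R) ∈ maximalIdeal R := by
    rw [← hmax, Ideal.mem_comap, map_natCast] at hpB
    exact hpB
  refine ⟨R, i1, i2, charZero_of_injective_ringHom hf, ?_, h3⟩
  rw [CharP.charP_iff_prime_eq_zero hp, ← map_natCast (residue R), residue_eq_zero_iff]
  exact hpR

end Vale.Agent.P190.H455
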