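import Vale.Agent.P190.H455.Embed

/-!
# P190: the counterexample over an arbitrary complete regular base ring that maps to a power
series ring in three variables over a field of characteristic zero, dominating a given finite
extension of the base ring
-/

set_option autoImplicit false

namespace Vale.Agent.P190.H455

open Vale.Agent.P190 Vale.Agent.P190.D IsLocalRing RingTheory.Sequence

universe v

/-- As `n3_exists`, but the integrally closed finite extension also contains a given finite
extension domain `E` of `B`. -/
theorem exists_dom {A B S E : Type} [CommRing A] [IsDomain A] [CommRing B] [IsDomain B]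
    [IsIntegrallyClosed B] [IsNoetherianRing B] [CharZero B] (θ : A →+* B)
    (hθ : Function.Injective θ) [CommRing S] [IsDomain S] [Algebra A S] [Module.Finite A S]
    (hinj : Function.Injective (algebraMap A S))
    [CommRing E] [IsDomain E] [Algebra B E] [Module.Finite B E]
    (hinjE : Function.Injective (algebraMap B E)) :
    ∃ (R : Type) (_ : CommRing R) (_ : IsDomain R) (_ : Algebra B R) (ψ : S →+* R)
      (χ : E →ₐ[B] R),
      Module.Finite B R ∧ IsIntegrallyClosed R ∧ Function.Injective (algebraMap B R) ∧
      Function.Injective χ ∧ ∀ a, ψ (algebraMap A S a) = algebraMap B R (θ a) := by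
  classical
  let F : Type := FractionRing B
  let Ω : Type := AlgebraicClosure F
  let _ : Field Ω := inferInstanceAs (Field (AlgebraicClosure F))
  let _ : Algebra F Ω := inferInstanceAs (Algebra F (AlgebraicClosure F))
  let _ : Algebra B Ω := inferInstanceAs (Algebra B (AlgebraicClosure F))
  have hst : IsScalarTower B F Ω := inferInstanceAs (IsScalarTower B F (AlgebraicClosure F))
  have hac : IsAlgClosed Ω := inferInstanceAs (IsAlgClosed (AlgebraicClosure F))
  have hBΩ : Function.Injective (algebraMap B Ω) := by
    rw [IsScalarTower.algebraMap_eq B F Ω]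
    exact (algebraMap F Ω).injective.comp (IsFractionRing.injective B F)
  have hF0 : CharZero F := charZero_of_injective_algebraMap (IsFractionRing.injective B F)
  let _ : Algebra A Ω := ((algebraMap B Ω).comp θ).toAlgebra
  have hAΩ : ∀ a, algebraMap A Ω a = algebraMap B Ω (θ a) := fun a => rfl
  have hAinj : Function.Injective (algebraMap A Ω) := hBΩ.comp hθ
  have ht1 : Module.IsTorsionFree A S := Module.isTorsionFree_iff_algebraMap_injective.2 hinj
  have ht2 : Module.IsTorsionFree A Ω := Module.isTorsionFree_iff_algebraMap_injective.2 hAinj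
  have ht3 : Module.IsTorsionFree B E := Module.isTorsionFree_iff_algebraMap_injective.2 hinjE
  have ht4 : Module.IsTorsionFree B Ω := Module.isTorsionFree_iff_algebraMap_injective.2 hBΩ
  have halg : Algebra.IsIntegral A S := Algebra.IsIntegral.of_finite A S
  have halg2 : Algebra.IsAlgebraic A S := inferInstance
  have halg3 : Algebra.IsIntegral B E := Algebra.IsIntegral.of_finite B E
  have halg4 : Algebra.IsAlgebraic B E := inferInstance
  let φ : S →ₐ[A] Ω := IsAlgClosed.lift
  let φE : E →ₐ[B] Ω := IsAlgClosed.lift
  have hφE : Function.Injective φE := by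
    have h1 : RingHom.ker φE = ⊥ := by
      apply Ideal.eq_bot_of_comap_eq_bot (R := B)
      rw [eq_bot_iff]
      intro x hx
      rw [Ideal.mem_comap, RingHom.mem_ker, AlgHom.commutes] at hx
      exact hBΩ (hx.trans (map_zero _).symm)
    exact (RingHom.injective_iff_ker_eq_bot (φE : E →+* Ω)).2 h1
  obtain ⟨s, hs⟩ := Module.Finite.fg_top (R := A) (M := S)
  obtain ⟨sE, hsE⟩ := Module.Finite.fg_top (R := B) (M := E)
  let L : IntermediateField F Ω :=
    IntermediateField.adjoin F (φ '' (s : Set S) ∪ φE '' (sE : Set E))
  have hφint : ∀ x, IsIntegral B (φ x) := by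
    intro x
    have h1 : IsIntegral A (φ x) := (halg.isIntegral x).map φ
    obtain ⟨p, hp, hp2⟩ := h1
    refine ⟨p.map θ, hp.map θ, ?_⟩
    rw [Polynomial.eval₂_map]
    exact hp2
  have hφEint : ∀ x, IsIntegral B (φE x) := fun x => (halg3.isIntegral x).map φE
  have hfd : FiniteDimensional F L := by
    have hf1 : (φ '' (s : Set S) ∪ φE '' (sE : Set E)).Finite :=
      (s.finite_toSet.image φ).union (sE.finite_toSet.image φE)
    have : Finite (φ '' (s : Set S) ∪ φE '' (sE : Set E) : Set Ω) := hf1.to_subtype
    refine IntermediateField.finiteDimensional_adjoin ?_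
    rintro _ (⟨x, -, rfl⟩ | ⟨x, -, rfl⟩)
    · exact (hφint x).tower_top
    · exact (hφEint x).tower_top
  have hL : ∀ x, φ x ∈ L := by
    intro x
    have hx : x ∈ Submodule.span A (s : Set S) := by rw [hs]; trivial
    induction hx using Submodule.span_induction with
    | mem y hy => exact IntermediateField.subset_adjoin F _ (Or.inl ⟨y, hy, rfl⟩)
    | zero => rw [map_zero]; exact L.zero_mem
    | add y z _ _ hy hz => rw [map_add]; exact L.add_mem hy hz
    | smul a y _ hy =>
      rw [map_smul, Algebra.smul_def, hAΩ, IsScalarTower.algebraMap_apply B F Ω]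
      exact L.mul_mem (L.algebraMap_mem _) hy
  have hLE : ∀ x, φE x ∈ L := by
    intro x
    have hx : x ∈ Submodule.span B (sE : Set E) := by rw [hsE]; trivial
    induction hx using Submodule.span_induction with
    | mem y hy => exact IntermediateField.subset_adjoin F _ (Or.inr ⟨y, hy, rfl⟩)
    | zero => rw [map_zero]; exact L.zero_mem
    | add y z _ _ hy hz => rw [map_add]; exact L.add_mem hy hz
    | smul a y _ hy =>
      rw [map_smul, Algebra.smul_def, IsScalarTower.algebraMap_apply B F Ω]
      exact L.mul_mem (L.algebraMap_mem _) hy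
  have hsep : Algebra.IsSeparable F L := inferInstance
  let R : Type := integralClosure B L
  let _ : CommRing R := inferInstanceAs (CommRing (integralClosure B L))
  let _ : Algebra B R := inferInstanceAs (Algebra B (integralClosure B L))
  have hdom : IsDomain R := inferInstanceAs (IsDomain (integralClosure B L))
  have hfin : Module.Finite B R := IsIntegralClosure.finite B F L (integralClosure B L)
  have hic : IsIntegrallyClosed R := integralClosure.isIntegrallyClosedOfFiniteExtension F
  have h0 : IsScalarTower B L Ω := IsScalarTower.of_algebraMap_eq fun b => rfl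
  let ψ : S →+* R :=
    { toFun := fun x => ⟨⟨φ x, hL x⟩, by
        have h1 : IsIntegral B (algebraMap L Ω (⟨φ x, hL x⟩ : L)) := hφint x
        exact (isIntegral_algebraMap_iff (algebraMap L Ω).injective).1 h1⟩
      map_zero' := by apply Subtype.ext; apply Subtype.ext; exact map_zero φ
      map_one' := by apply Subtype.ext; apply Subtype.ext; exact map_one φ
      map_add' := fun x y => by apply Subtype.ext; apply Subtype.ext; exact map_add φ x y
      map_mul' := fun x y => by apply Subtype.ext; apply Subtype.ext; exact map_mul φ x y }
  let χ0 : E →+* R :=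
    { toFun := fun x => ⟨⟨φE x, hLE x⟩, by
        have h1 : IsIntegral B (algebraMap L Ω (⟨φE x, hLE x⟩ : L)) := hφEint x
        exact (isIntegral_algebraMap_iff (algebraMap L Ω).injective).1 h1⟩
      map_zero' := by apply Subtype.ext; apply Subtype.ext; exact map_zero φE
      map_one' := by apply Subtype.ext; apply Subtype.ext; exact map_one φE
      map_add' := fun x y => by apply Subtype.ext; apply Subtype.ext; exact map_add φE x y
      map_mul' := fun x y => by apply Subtype.ext; apply Subtype.ext; exact map_mul φE x y }
  let χ : E →ₐ[B] R :=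
    { χ0 with
      commutes' := fun b => by
        apply Subtype.ext
        apply Subtype.ext
        change φE (algebraMap B E b) = _
        rw [AlgHom.commutes]
        rfl }
  refine ⟨R, inferInstance, hdom, inferInstance, ψ, χ, hfin, hic, ?_, ?_, ?_⟩
  · intro x y hxy
    apply hBΩ
    have h1 := congrArg (fun z : integralClosure B L => ((z : L) : Ω)) hxy
    exact h1
  · intro x y hxy
    apply hφE
    have h1 := congrArg (fun z : integralClosure B L => ((z : L) : Ω)) hxy
    exact h1
  · intro a
    apply Subtype.ext
    apply Subtype.ext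
    change φ (algebraMap A S a) = _
    rw [AlgHom.commutes, hAΩ]
    rfl

/-- Let `R` be a module-finite `B`-algebra with the equations.  Then every finitely generated
module over every local ring `T` that is a module-finite `R`-algebra has depth `< dim B`. -/
theorem depth_lt (B : Type) [CommRing B] [IsLocalRing B] [IsNoetherianRing B]
    {xs : List B} (hpar : IsPar B xs) (F : Type) [Field F] [CharZero F]
    (π : B →+* MvPowerSeries (Fin 3) F) (b : Fin 3 → B)
    (hb : ∀ i, π (b i) = MvPowerSeries.X i) (R : Type) [CommRing R] [Algebra B R]
    [Module.Finite B R] (c : r1S → Fin 3 → R) (s : Fin 17 → R) (G : (r1S → Bool) → R)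
    (hrel : Rel (fun i => algebraMap B R (b i)) c s G)
    (T : Type) [CommRing T] [IsLocalRing T] [Algebra R T] [Module.Finite R T]
    (M : Type v) [AddCommGroup M] [Module T M] [Module.Finite T M] (rs : List T)
    (hrs : ∀ r ∈ rs, r ∈ maximalIdeal T) (hreg : IsRegular M rs) : rs.length < xs.length := by
  by_contra hlen
  push Not at hlen
  -- truncate the sequence and move the module to `Type`
  have hreg2 := n5_take rs hrs hreg xs.length
  have hlen2 : (rs.take xs.length).length = xs.length := by
    rw [List.length_take, min_eq_left hlen]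
  have hrs2 : ∀ r ∈ rs.take xs.length, r ∈ maximalIdeal T := fun r hr =>
    hrs r (List.mem_of_mem_take hr)
  obtain ⟨n, f, hsurj⟩ := Module.Finite.exists_fin' T M
  let N : Type := (Fin n → T) ⧸ LinearMap.ker f
  let e : N ≃ₗ[T] M := f.quotKerEquivOfSurjective hsurj
  have hregN : IsRegular N (rs.take xs.length) := (LinearEquiv.isRegular_congr e _).2 hreg2
  have hntN : Nontrivial N := hregN.nontrivial
  -- the structures over `B` and `R`
  let _ : Algebra B T := ((algebraMap R T).comp (algebraMap B R)).toAlgebra
  have hst : IsScalarTower B R T := IsScalarTower.of_algebraMap_eq fun _ => rfl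
  have hfinT : Module.Finite B T := Module.Finite.trans R T
  let _ : Module R N := Module.compHom N (algebraMap R T)
  let _ : Module B N := Module.compHom N (algebraMap B T)
  have hRT : IsScalarTower R T N := ⟨fun a x y => by rw [Algebra.smul_def, mul_smul]; rfl⟩
  have hBT : IsScalarTower B T N := ⟨fun a x y => by rw [Algebra.smul_def, mul_smul]; rfl⟩
  have hBR : IsScalarTower B R N := ⟨fun a x y => by
    change algebraMap R T (a • x) • y = algebraMap R T (algebraMap B R a) • algebraMap R T x • y
    rw [Algebra.smul_def, map_mul, mul_smul]⟩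
  have hfinN : Module.Finite B N := Module.Finite.trans T N
  have hNT : IsNoetherianRing T := IsNoetherianRing.of_finite B T
  have h1 : IsRegular N (xs.map (algebraMap B T)) := by
    apply regular_of_parameters _ N (n1_mem_maximalIdeal hpar)
    · exact ⟨rs.take xs.length, by rw [hlen2, List.length_map], hrs2, hregN⟩
    · intro q _ hq
      exact n1_eq_maximalIdeal hpar q.asIdeal q.isPrime hq
  have h2 : IsWeaklyRegular N xs := by
    rw [← isWeaklyRegular_map_algebraMap_iff T N]
    exact h1.toIsWeaklyRegular
  have h3 : Module.Free B N := free_of_regular_generators _ B xs N rfl hpar.gen h2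
  exact no_free F B R π b hb _ _ _ hrel N

/-- The counterexample over the base ring `B`, dominating the finite extension domain `E`. -/
theorem main_base (B : Type) [CommRing B] [IsDomain B] [IsLocalRing B] [IsNoetherianRing B]
    [IsIntegrallyClosed B] [CharZero B] {xs : List B} (hpar : IsPar B xs)
    (hcomp : IsAdicComplete (maximalIdeal B) B) (F : Type) [Field F] [CharZero F]
    (π : B →+* MvPowerSeries (Fin 3) F) (b : Fin 3 → B)
    (hb : ∀ i, π (b i) = MvPowerSeries.X i)
    (E : Type) [CommRing E] [IsDomain E] [Algebra B E] [Module.Finite B E]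
    (hinjE : Function.Injective (algebraMap B E)) :
    ∃ (R : Type) (_ : CommRing R) (_ : IsDomain R) (_ : IsLocalRing R) (_ : Algebra E R),
      Module.Finite E R ∧ Function.Injective (algebraMap E R) ∧
      IsNoetherianRing R ∧ IsIntegrallyClosed R ∧ IsAdicComplete (maximalIdeal R) R ∧
      ringKrullDim R = (xs.length : ℕ) ∧
      ∀ (T : Type) [CommRing T] [IsLocalRing T] [Algebra R T] [Module.Finite R T]
        (M : Type v) [AddCommGroup M] [Module T M] [Module.Finite T M] (rs : List T),
        (∀ r ∈ rs, r ∈ maximalIdeal T) → IsRegular M rs → rs.length < xs.length := by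
  obtain ⟨S, s1, s2, s3, hfinS, hinjS, c, s, G, hrel⟩ := exists_S
  let θ : Z3 →+* B := MvPolynomial.eval₂Hom (Int.castRingHom B) b
  have hθX : ∀ i, θ (MvPolynomial.X i) = b i := fun i => MvPolynomial.eval₂Hom_X' _ _ _
  have hθ : Function.Injective θ := by
    have h1 : (π.comp θ) = (MvPolynomial.coeToMvPowerSeries.ringHom (σ := Fin 3) (R := F)).comp
        (MvPolynomial.map (Int.castRingHom F)) := by
      refine MvPolynomial.ringHom_ext ?_ ?_
      · intro n
        simp only [eq_intCast, map_intCast]
      · intro i
        rw [RingHom.comp_apply, hθX, hb, RingHom.comp_apply, MvPolynomial.map_X]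
        exact (MvPolynomial.coe_X i).symm
    have h2 : Function.Injective (π.comp θ) := by
      rw [h1]
      change Function.Injective (fun p => (MvPolynomial.coeToMvPowerSeries.ringHom
        (σ := Fin 3) (R := F)) (MvPolynomial.map (Int.castRingHom F) p))
      exact (MvPolynomial.coe_injective (σ := Fin 3) (R := F)).comp
        (MvPolynomial.map_injective _ (Int.castRingHom F).injective_int)
    exact Function.Injective.of_comp (f := π) h2
  obtain ⟨R, i1, i2, i3, ψ, χ, hfin, hnorm, hinjR, hχ, hψ⟩ :=
    exists_dom θ hθ hinjS (S := S) hinjE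
  have hloc : IsLocalRing R := n2_isLocalRing (B := B) hcomp
  have hdim : ringKrullDim R = (xs.length : ℕ) := n1_ringKrullDim hpar hinjR
  have hrelR := hrel.map ψ
  simp only [hψ, hθX] at hrelR
  let _ : Algebra E R := (χ : E →+* R).toAlgebra
  have hst : IsScalarTower B E R := IsScalarTower.of_algebraMap_eq fun x => (χ.commutes x).symm
  have hfinE : Module.Finite E R := Module.Finite.of_restrictScalars_finite B E R
  refine ⟨R, i1, i2, hloc, inferInstance, hfinE, hχ, IsNoetherianRing.of_finite B R, hnorm,
    isAdicComplete_of_finite_local (A := B) hcomp, hdim, ?_⟩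
  intro T _ _ _ _ M _ _ _ rs hrs hreg
  exact depth_lt B hpar F π b hb R _ _ _ hrelR T M rs hrs hreg

end Vale.Agent.P190.H455
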