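import Vale.Agent.P190.H455.Main
import Vale.Agent.P190.H231.Coeff
import Vale.Agent.P190.H128.E6
import Vale.Agent.P190.H128.E8
import Vale.Agent.P190.H128.E10

/-!
# P190: module-finite extensions without small Cohen-Macaulay modules of complete local domains
of characteristic zero (intrinsic form, with Cohen's structure theorem)
-/

set_option autoImplicit false

namespace Vale.Agent.P190.H455

open Vale.Agent.P190 Vale.Agent.P190.D IsLocalRing RingTheory.Sequence

universe v

theorem goodBase_regular (V : Type) [CommRing V] [IsRegularLocalRing V]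
    (hV : IsAdicComplete (maximalIdeal V) V) (e : ℕ) (he : ringKrullDim V = (e : ℕ)) :
    GoodBase V e := by
  obtain ⟨h1, h2, ys, h3⟩ := H128.regular_facts V
  refine ⟨h1, inferInstance, inferInstance, h2, hV, ys, ?_, h3⟩
  have h4 := n1_ringKrullDim_B h3
  rw [he] at h4
  exact_mod_cast h4.symm

theorem goodBase_witt (p : ℕ) [Fact p.Prime] (k : Type) [Field k] [CharP k p] [PerfectRing k p] :
    GoodBase (WittVector p k) 1 where
  dom := inferInstance
  loc := inferInstance
  noeth := inferInstance
  arch := H128.witt_archDiv p k
  complete := H128.witt_complete p k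
  par := ⟨_, rfl, H128.witt_par p k⟩

/-- complete Noetherian local domains containing `ℚ` -/
theorem main_equal (B : Type) [CommRing B] [IsDomain B] [IsLocalRing B] [IsNoetherianRing B]
    [Algebra ℚ B] [hB : IsAdicComplete (maximalIdeal B) B] (d : ℕ) (hd : 3 ≤ d)
    (hdim : ringKrullDim B = (d : ℕ)) :
    ∃ (R : Type) (_ : CommRing R) (_ : IsLocalRing R) (_ : Algebra B R),
      Module.Finite B R ∧ Function.Injective (algebraMap B R) ∧ IsCounterexample.{v} R d := by
  obtain ⟨K, i1, i2, f, hf⟩ := H231.exists_coefficientField B hB
  obtain ⟨φ, h1, h2⟩ := H128.exists_finite_powerSeries B hB K f hf.surjective d hdim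
  let _ : Algebra (MvPowerSeries (Fin d) K) B := φ.toAlgebra
  have h3 : Module.Finite (MvPowerSeries (Fin d) K) B := h1
  exact main_field.{v} K d hd B h2

/-- complete Noetherian local domains of mixed characteristic with perfect residue field -/
theorem main_perfect (B : Type) [CommRing B] [IsDomain B] [IsLocalRing B] [IsNoetherianRing B]
    [CharZero B] [hB : IsAdicComplete (maximalIdeal B) B] (p : ℕ) [Fact p.Prime]
    [CharP (ResidueField B) p] [PerfectField (ResidueField B)] (d : ℕ) (hd : 4 ≤ d)
    (hdim : ringKrullDim B = (d : ℕ)) :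
    ∃ (R : Type) (_ : CommRing R) (_ : IsLocalRing R) (_ : Algebra B R),
      Module.Finite B R ∧ Function.Injective (algebraMap B R) ∧ IsCounterexample.{v} R d := by
  have hpr : PerfectRing (ResidueField B) p := PerfectField.toPerfectRing p
  obtain ⟨n, φ, h1, h2, h3⟩ := H128.exists_cohen_mixed p B (ResidueField B) hB (residue B)
    residue_surjective
  rw [hdim] at h3
  have h4 : d = n + 1 := by exact_mod_cast h3
  let _ : Algebra (MvPowerSeries (Fin n) (WittVector p (ResidueField B))) B := φ.toAlgebra
  have h5 : Module.Finite (MvPowerSeries (Fin n) (WittVector p (ResidueField B))) B := h1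
  have h6 : CharZero (WittVector p (ResidueField B)) := H128.witt_charZero p _
  have h7 := good_main.{v} (WittVector p (ResidueField B)) 1 (goodBase_witt p _) n (by omega) B h2
  rwa [Nat.add_comm, ← h4] at h7

/-- power series rings over complete regular local rings of characteristic zero -/
theorem main_regular (V : Type) [CommRing V] [IsRegularLocalRing V] [CharZero V]
    [hV : IsAdicComplete (maximalIdeal V) V] (e : ℕ) (he : ringKrullDim V = (e : ℕ))
    (n : ℕ) (hn : 3 ≤ n) (E : Type) [CommRing E] [IsDomain E]
    [Algebra (MvPowerSeries (Fin n) V) E] [Module.Finite (MvPowerSeries (Fin n) V) E]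
    (hE : Function.Injective (algebraMap (MvPowerSeries (Fin n) V) E)) :
    ∃ (R : Type) (_ : CommRing R) (_ : IsLocalRing R) (_ : Algebra E R),
      Module.Finite E R ∧ Function.Injective (algebraMap E R) ∧
      IsCounterexample.{v} R (e + n) :=
  good_main.{v} V e (goodBase_regular V hV e he) n hn E hE

end Vale.Agent.P190.H455
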