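import Vale.Agent.P190.Bdl.B5

/-!
# P190: base change of the counterexample

The equations of the ring over `K[[x₁,x₂,x₃]]` have coefficients in `ℤ[√n]`.  We write them down
in an arbitrary commutative ring, realise them in a domain that is finite over `ℤ[x₁,x₂,x₃]`, and
show: if `B → F[[x₁,x₂,x₃]]` is a ring homomorphism (`F` any field of characteristic zero), and
`R` is a `B`-algebra receiving these equations, then no nonzero `R`-module is finite free
over `B`.
-/

set_option autoImplicit false

open Filter TensorProduct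

namespace Vale.Agent.P190.H455

open Vale.Agent.P190.D

/-- the constants of the arrangement of 17 lines whose square roots are needed -/
def cst (t : r1S) (j : Fin 3) : ℤ :=
  if j = 0 then r1a t.1.2 - r1a (r1v t)
  else if j = 1 then r1a t.1.1 - r1a (r1v t)
  else r1a t.1.2 - r1a t.1.1

theorem cst_zero (t : r1S) : cst t 0 = r1a t.1.2 - r1a (r1v t) := rfl
theorem cst_one (t : r1S) : cst t 1 = r1a t.1.1 - r1a (r1v t) := rfl
theorem cst_two (t : r1S) : cst t 2 = r1a t.1.2 - r1a t.1.1 := rfl

theorem cst_ne (t : r1S) (j : Fin 3) : cst t j ≠ 0 := by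
  obtain ⟨⟨a, b⟩, p1, p2, p3⟩ := t
  change a.val < b.val at p1
  change a.val + 2 * b.val < 24 at p2
  change 8 ≤ a.val + b.val at p3
  unfold cst
  split_ifs
  · simp only [r1a, r1v]
    omega
  · simp only [r1a, r1v]
    omega
  · simp only [r1a]
    omega

/-- the arrangement of the 17 lines `X + a Y + a ^ 3 Z`, `|a| ≤ 8`, with given square roots -/
noncomputable def arrOf (K : Type) [Field K] [CharZero K] (c : r1S → Fin 3 → K)
    (hc : ∀ t j, c t j ^ 2 = ((cst t j : ℤ) : K)) : Arr K where
  I := Fin 17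
  b := r1b
  b_inj := by
    intro i j h
    have h1 : (r1b i).val = (r1b j).val := congrArg Fin.val h
    simp only [r1b] at h1
    apply Fin.ext
    omega
  l := fun i j => ((r1L i j : ℤ) : K)
  l_b := by
    intro i
    funext j
    rw [r1L_b]
    by_cases h : j = i
    · subst h; simp
    · simp [h]
  S := r1S
  v := r1v
  h := fun t => t.1.2
  d := fun t => t.1.1
  δ := fun t => c t 0
  η := fun t => c t 1
  ν := fun t => c t 2
  δ_ne := fun t h => cst_ne t 0 (Int.cast_eq_zero.1 (by rw [← hc, h, zero_pow two_ne_zero] :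
    ((cst t 0 : ℤ) : K) = 0))
  η_ne := fun t h => cst_ne t 1 (Int.cast_eq_zero.1 (by rw [← hc, h, zero_pow two_ne_zero] :
    ((cst t 1 : ℤ) : K) = 0))
  ν_ne := fun t h => cst_ne t 2 (Int.cast_eq_zero.1 (by rw [← hc, h, zero_pow two_ne_zero] :
    ((cst t 2 : ℤ) : K) = 0))
  rel := by
    intro t
    funext j
    simp only [Pi.sub_apply, Pi.smul_apply, smul_eq_mul]
    rw [hc, hc, hc, cst_zero, cst_one, cst_two]
    exact_mod_cast r1_rel t j
  vh := by
    rintro ⟨⟨a, b⟩, p1, p2, p3⟩ h
    change a.val < b.val at p1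
    change a.val + 2 * b.val < 24 at p2
    have := congrArg Fin.val h
    simp only [r1v] at this
    omega
  vd := by
    rintro ⟨⟨a, b⟩, p1, p2, p3⟩ h
    change a.val < b.val at p1
    change a.val + 2 * b.val < 24 at p2
    have := congrArg Fin.val h
    simp only [r1v] at this
    omega
  hd := by
    rintro ⟨⟨a, b⟩, p1, p2, p3⟩ h
    change a.val < b.val at p1
    have := congrArg Fin.val h
    simp only at this
    omega
  indep := by
    intro x y z hxy hxz hyz
    by_cases h : x.val + y.val + z.val = 24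
    · exact Or.inr (r1_triple x y z hxy hxz hyz h)
    · left
      have h1 := r1_det x y z hxy hxz hyz h
      have h2 : (Matrix.of ![fun j => ((r1L x j : ℤ) : K), fun j => ((r1L y j : ℤ) : K),
          fun j => ((r1L z j : ℤ) : K)]).det ≠ 0 := by
        rw [Matrix.det_fin_three]
        simp only [Matrix.of_apply, Matrix.cons_val_zero, Matrix.cons_val_one,
          Matrix.cons_val_two, Matrix.head_cons, Matrix.tail_cons]
        exact_mod_cast h1
      exact Matrix.linearIndependent_rows_of_det_ne_zero h2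
  share := r1_share
  cover := by
    intro x
    obtain ⟨t, ht⟩ := r1_cover x
    exact ⟨t, by simpa only [Set.mem_insert_iff, Set.mem_singleton_iff] using ht⟩
  even := by
    rw [show @Fintype.card r1S _ = 32 from r1_card]
    exact ⟨16, rfl⟩
  two_ne := two_ne_zero
  rho := by
    rw [show @Fintype.card r1S _ = 32 from r1_card]
    simp

/-- The equations, in an arbitrary commutative ring. -/
structure Rel {T : Type} [CommRing T] (x : Fin 3 → T) (c : r1S → Fin 3 → T) (s : Fin 17 → T)
    (G : (r1S → Bool) → T) : Prop where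
  s_b : ∀ i, s (r1b i) = x i
  c_sq : ∀ t j, c t j ^ 2 = ((cst t j : ℤ) : T)
  s_sq : ∀ a, s a ^ 2 = ∑ i, ((r1L a i : ℤ) : T) * x i ^ 2
  pi_G : ∀ ε ε' : r1S → Bool,
    (∏ t, if ε t then c t 0 * s t.1.1 + c t 1 * s t.1.2 else c t 2 * s (r1v t)) * G ε' =
    (∏ t, if ε' t then c t 0 * s t.1.1 + c t 1 * s t.1.2 else c t 2 * s (r1v t)) * G ε
  G_G : ∀ ε ε' : r1S → Bool, G ε * G ε' =
    ∏ t, if ε t = ε' t then
        (if ε t then c t 0 * s t.1.1 + c t 1 * s t.1.2 else c t 0 * s t.1.1 - c t 1 * s t.1.2)
      else c t 2 * s (r1v t)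

theorem Rel.map {T T' : Type} [CommRing T] [CommRing T'] {x : Fin 3 → T} {c : r1S → Fin 3 → T}
    {s : Fin 17 → T} {G : (r1S → Bool) → T} (h : Rel x c s G) (f : T →+* T') :
    Rel (fun i => f (x i)) (fun t j => f (c t j)) (fun a => f (s a)) (fun ε => f (G ε)) where
  s_b := fun i => congrArg f (h.s_b i)
  c_sq := fun t j => by rw [← map_pow, h.c_sq, map_intCast]
  s_sq := fun a => by
    rw [← map_pow, h.s_sq, map_sum]
    refine Finset.sum_congr rfl fun i _ => ?_
    rw [map_mul, map_intCast, map_pow]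
  pi_G := fun ε ε' => by
    have := congrArg f (h.pi_G ε ε')
    simpa only [map_mul, map_prod, apply_ite f, map_add] using this
  G_G := fun ε ε' => by
    have := congrArg f (h.G_G ε ε')
    simpa only [map_mul, map_prod, apply_ite f, map_add, map_sub] using this

/-- from the ring data of the previous files to the equations -/
theorem Rel.of_RData {K : Type} [Field K] [CharZero K] (c : r1S → Fin 3 → K)
    (hc : ∀ t j, c t j ^ 2 = ((cst t j : ℤ) : K)) {R : Type} [CommRing R] [Algebra (Bh K) R]
    (D : RData (arrOf K c hc) R) :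
    Rel (fun i => algebraMap (Bh K) R (MvPowerSeries.X i))
      (fun t j => algebraMap (Bh K) R (MvPowerSeries.C (c t j))) D.s D.G where
  s_b := D.s_b
  c_sq := fun t j => by
    rw [← map_pow, ← map_pow, hc, map_intCast, map_intCast]
  s_sq := fun a => by
    have h := D.s_sq a
    rw [h, map_sum]
    refine Finset.sum_congr rfl fun i _ => ?_
    rw [map_mul, map_pow]
    congr 1
    change algebraMap (Bh K) R (MvPowerSeries.C ((r1L a i : ℤ) : K)) = _
    rw [map_intCast, map_intCast]
  pi_G := D.pi_G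
  G_G := D.G_G

/-- from the equations to the ring data of the previous files -/
def Rel.toRData {K : Type} [Field K] [CharZero K] (c : r1S → Fin 3 → K)
    (hc : ∀ t j, c t j ^ 2 = ((cst t j : ℤ) : K)) {R : Type} [CommRing R] [Algebra (Bh K) R]
    {s : Fin 17 → R} {G : (r1S → Bool) → R}
    (h : Rel (fun i => algebraMap (Bh K) R (MvPowerSeries.X i))
      (fun t j => algebraMap (Bh K) R (MvPowerSeries.C (c t j))) s G) :
    RData (arrOf K c hc) R where
  s := s
  G := G
  s_b := h.s_b
  s_sq := fun a => by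
    rw [map_sum]
    refine (h.s_sq a).trans ?_
    refine Finset.sum_congr rfl fun i _ => ?_
    rw [map_mul, map_pow]
    congr 1
    change _ = algebraMap (Bh K) R (MvPowerSeries.C ((r1L a i : ℤ) : K))
    rw [map_intCast, map_intCast]
  pi_G := h.pi_G
  G_G := h.G_G

/-- `ℤ[x₁,x₂,x₃]` -/
abbrev Z3 : Type := MvPolynomial (Fin 3) ℤ

/-- The equations can be realised in a domain finite over `ℤ[x₁,x₂,x₃]`. -/
theorem exists_S : ∃ (S : Type) (_ : CommRing S) (_ : IsDomain S) (_ : Algebra Z3 S),
    Module.Finite Z3 S ∧ Function.Injective (algebraMap Z3 S) ∧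
    ∃ (c : r1S → Fin 3 → S) (s : Fin 17 → S) (G : (r1S → Bool) → S),
      Rel (fun i => algebraMap Z3 S (MvPolynomial.X i)) c s G := by
  classical
  have hsq : ∀ z : ℂ, ∃ y : ℂ, y ^ 2 = z := fun z =>
    IsAlgClosed.exists_pow_nat_eq z (n := 2) (by norm_num)
  choose r hr using hsq
  let c0 : r1S → Fin 3 → ℂ := fun t j => r ((cst t j : ℤ) : ℂ)
  have hc0 : ∀ t j, c0 t j ^ 2 = ((cst t j : ℤ) : ℂ) := fun t j => hr _
  obtain ⟨R, i1, i2, i3, D, hfin, hinj, -⟩ := exists_ring (arrOf ℂ c0 hc0)
  have hD := Rel.of_RData c0 hc0 D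
  let θ : Z3 →+* Bh ℂ := (MvPolynomial.coeToMvPowerSeries.ringHom (σ := Fin 3) (R := ℂ)).comp
    (MvPolynomial.map (Int.castRingHom ℂ))
  have hθ : Function.Injective θ := by
    change Function.Injective (fun p => (MvPolynomial.coeToMvPowerSeries.ringHom
      (σ := Fin 3) (R := ℂ)) (MvPolynomial.map (Int.castRingHom ℂ) p))
    exact (MvPolynomial.coe_injective (σ := Fin 3) (R := ℂ)).comp
      (MvPolynomial.map_injective _ (Int.castRingHom ℂ).injective_int)
  let _ : Algebra Z3 R := ((algebraMap (Bh ℂ) R).comp θ).toAlgebra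
  have hZR : ∀ p, algebraMap Z3 R p = algebraMap (Bh ℂ) R (θ p) := fun p => rfl
  have hX : ∀ i, θ (MvPolynomial.X i) = MvPowerSeries.X i := by
    intro i
    change (MvPolynomial.coeToMvPowerSeries.ringHom (σ := Fin 3) (R := ℂ))
      (MvPolynomial.map (Int.castRingHom ℂ) (MvPolynomial.X i)) = _
    rw [MvPolynomial.map_X]
    exact MvPolynomial.coe_X i
  have hinjZ : Function.Injective (algebraMap Z3 R) := hinj.comp hθ
  let c : r1S → Fin 3 → R := fun t j => algebraMap (Bh ℂ) R (MvPowerSeries.C (c0 t j))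
  have hD' : Rel (fun i => algebraMap Z3 R (MvPolynomial.X i)) c D.s D.G := by
    simp only [hZR, hX]
    exact hD
  have hicz : ∀ n : ℤ, IsIntegral Z3 ((n : ℤ) : R) := fun n => by
    rw [← map_intCast (algebraMap Z3 R) n]
    exact isIntegral_algebraMap
  have hic : ∀ t j, IsIntegral Z3 (c t j) := by
    intro t j
    apply IsIntegral.of_pow (n := 2) (by norm_num)
    rw [hD'.c_sq]
    exact hicz _
  have his : ∀ a, IsIntegral Z3 (D.s a) := by
    intro a
    apply IsIntegral.of_pow (n := 2) (by norm_num)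
    have h1 := hD'.s_sq a
    rw [h1]
    refine IsIntegral.sum _ fun i _ => (hicz _).mul (IsIntegral.pow isIntegral_algebraMap _)
  have hiG : ∀ ε, IsIntegral Z3 (D.G ε) := by
    intro ε
    apply IsIntegral.of_pow (n := 2) (by norm_num)
    rw [sq]
    have h1 := hD'.G_G ε ε
    rw [h1]
    refine IsIntegral.prod _ fun t _ => ?_
    rw [if_pos rfl]
    split_ifs
    · exact ((hic _ _).mul (his _)).add ((hic _ _).mul (his _))
    · exact ((hic _ _).mul (his _)).sub ((hic _ _).mul (his _))
  let gens : Set R := (Set.range D.s ∪ Set.range D.G) ∪ Set.range (fun p : r1S × Fin 3 => c p.1 p.2)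
  have hfinG : gens.Finite := ((Set.finite_range (fun a : Fin 17 => D.s a)).union
    (Set.finite_range (fun ε : r1S → Bool => D.G ε))).union (Set.finite_range _)
  have hgen : ∀ x ∈ gens, IsIntegral Z3 x := by
    rintro _ ((⟨x, rfl⟩ | ⟨ε, rfl⟩) | ⟨⟨t, j⟩, rfl⟩)
    · exact his x
    · exact hiG ε
    · exact hic t j
  let S := Algebra.adjoin Z3 gens
  have hval : Function.Injective S.val := Subtype.val_injective
  refine ⟨S, inferInstance, inferInstance, inferInstance,
    Algebra.finite_adjoin_of_finite_of_isIntegral hfinG hgen, ?_,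
    fun t j => ⟨c t j, Algebra.subset_adjoin (Or.inr ⟨(t, j), rfl⟩)⟩,
    fun a => ⟨D.s a, Algebra.subset_adjoin (Or.inl (Or.inl ⟨a, rfl⟩))⟩,
    fun ε => ⟨D.G ε, Algebra.subset_adjoin (Or.inl (Or.inr ⟨ε, rfl⟩))⟩, ?_⟩
  · intro a b hab
    exact hinjZ (congrArg Subtype.val hab)
  · constructor
    · intro i
      exact Subtype.ext (hD'.s_b i)
    · intro t j
      apply hval
      rw [map_pow, map_intCast]
      exact hD'.c_sq t j
    · intro a
      apply hval
      rw [map_pow, map_sum]
      simp only [map_mul, map_intCast, map_pow]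
      exact hD'.s_sq a
    · intro ε ε'
      apply hval
      simp only [map_mul, map_prod, apply_ite S.val, map_add]
      exact hD'.pi_G ε ε'
    · intro ε ε'
      apply hval
      simp only [map_mul, map_prod, apply_ite S.val, map_add, map_sub]
      exact hD'.G_G ε ε'

end Vale.Agent.P190.H455
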