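import Vale.Agent.P190.H455.Core

/-!
# P190: no finite free modules after base change
-/

set_option autoImplicit false

open Filter TensorProduct

namespace Vale.Agent.P190.H455

open Vale.Agent.P190.D

/-- simultaneous eigenspaces of commuting square roots of scalars -/
theorem exists_eigen {A R M J : Type} [CommRing A] [IsLocalRing A] [CommRing R] [Algebra A R]
    [AddCommGroup M] [Module A M] [Module R M] [IsScalarTower A R M] [Module.Free A M]
    [Module.Finite A M] [Nontrivial M] [Fintype J] [DecidableEq J] (y : J → A)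
    (hy : ∀ j, IsUnit (2 * y j)) (c : J → R) (hc : ∀ j, c j ^ 2 = algebraMap A R (y j ^ 2)) :
    ∃ y' : J → A, (∀ j, y' j = y j ∨ y' j = - y j) ∧ ∃ N : Submodule R M,
      (∀ j, ∀ m ∈ N, c j • m = algebraMap A R (y' j) • m) ∧ Module.Free A N ∧
        Module.Finite A N ∧ Nontrivial N := by
  classical
  choose u hu using hy
  let i : J → R := fun j => algebraMap A R ((u j)⁻¹ : Aˣ)
  have hi : ∀ j, i j * (2 * algebraMap A R (y j)) = 1 := by
    intro j
    have h1 : (((u j)⁻¹ : Aˣ) : A) * (2 * y j) = 1 := by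
      rw [← hu j, Units.inv_mul]
    have h2 := congrArg (algebraMap A R) h1
    rw [map_mul, map_mul, map_one, map_ofNat] at h2
    exact h2
  let e : J → Bool → R := fun j b =>
    if b then i j * (algebraMap A R (y j) + c j) else i j * (algebraMap A R (y j) - c j)
  have hsum : ∏ j, ∑ b : Bool, e j b = 1 := by
    refine Finset.prod_eq_one fun j _ => ?_
    rw [Fintype.sum_bool]
    simp only [e, if_true]
    rw [if_neg (by simp)]
    linear_combination hi j
  rw [Finset.prod_univ_sum] at hsum
  obtain ⟨m, hm⟩ := exists_ne (0 : M)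
  have hex : ∃ p : J → Bool, (∏ j, e j (p j)) • m ≠ 0 := by
    by_contra hcon
    push Not at hcon
    apply hm
    have h1 : (1 : R) • m = 0 := by
      rw [← hsum, Finset.sum_smul]
      exact Finset.sum_eq_zero fun p _ => hcon p
    rwa [one_smul] at h1
  obtain ⟨p, hp⟩ := hex
  let E : R := ∏ j, e j (p j)
  let y' : J → A := fun j => if p j then y j else - y j
  have hce : ∀ j, c j * e j (p j) = algebraMap A R (y' j) * e j (p j) := by
    intro j
    have h1 := hc j
    rw [map_pow] at h1
    by_cases hpj : p j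
    · simp only [e, y', hpj, if_true]
      linear_combination i j * h1
    · simp only [e, y', hpj]
      simp only [Bool.false_eq_true, if_false, map_neg]
      linear_combination - i j * h1
  have hcE : ∀ j, c j * E = algebraMap A R (y' j) * E := by
    intro j
    have h1 : E = e j (p j) * ∏ l ∈ Finset.univ.erase j, e l (p l) :=
      (Finset.mul_prod_erase Finset.univ (fun l => e l (p l)) (Finset.mem_univ j)).symm
    rw [h1, ← mul_assoc, hce, mul_assoc]
  let N : Submodule R M :=
    { carrier := {m | ∀ j, c j • m = algebraMap A R (y' j) • m}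
      add_mem' := fun {a b} ha hb j => by rw [smul_add, smul_add, ha j, hb j]
      zero_mem' := fun j => by rw [smul_zero, smul_zero]
      smul_mem' := fun r a ha j => by rw [smul_comm, ha j, smul_comm] }
  have hN : ∀ m, m ∈ N ↔ ∀ j, c j • m = algebraMap A R (y' j) • m := fun m => Iff.rfl
  have hEN : ∀ m : M, E • m ∈ N := by
    intro m
    rw [hN]
    intro j
    rw [smul_smul, hcE, mul_smul]
  have hEid : ∀ m ∈ N, E • m = m := by
    intro m hm
    refine Finset.prod_induction (fun j => e j (p j)) (fun r => r • m = m) ?_ ?_ ?_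
    · intro a b ha hb
      rw [mul_smul, hb, ha]
    · exact one_smul _ _
    · intro j _
      have h1 := (hN m).1 hm j
      by_cases hpj : p j
      · simp only [y', hpj, if_true] at h1
        simp only [e, hpj, if_true]
        rw [mul_smul, add_smul, h1, ← two_smul R, smul_smul, smul_smul, mul_assoc, hi, one_smul]
      · simp only [y', hpj] at h1
        simp only [e, hpj]
        simp only [Bool.false_eq_true, if_false, map_neg] at h1 ⊢
        rw [mul_smul, sub_smul, h1, neg_smul, sub_neg_eq_add, ← two_smul R, smul_smul, smul_smul,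
          mul_assoc, hi, one_smul]
  let ρ : M →ₗ[A] N :=
    { toFun := fun m => ⟨E • m, hEN m⟩
      map_add' := fun a b => Subtype.ext (smul_add _ _ _)
      map_smul' := fun a b => Subtype.ext (smul_comm E a b) }
  let ι : N →ₗ[A] M := N.subtype.restrictScalars A
  have hρι : ρ.comp ι = LinearMap.id := by
    ext x
    exact hEid x.1 x.2
  have hproj : Module.Projective A N := Module.Projective.of_split ι ρ hρι
  have hfin : Module.Finite A N := Module.Finite.of_surjective ρ (by
    intro x
    exact ⟨ι x, LinearMap.congr_fun hρι x⟩)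
  refine ⟨y', ?_, N, fun j m hm => (hN m).1 hm j, Module.free_of_flat_of_isLocalRing, hfin,
    ⟨⟨⟨E • m, hEN m⟩, 0, fun h => hp (congrArg Subtype.val h)⟩⟩⟩
  intro j
  by_cases hpj : p j
  · left; simp only [y', hpj, if_true]
  · right; simp only [y', hpj]; simp

/-- The eigenspace step: no nonzero module over a `K[[x₁,x₂,x₃]]`-algebra with the equations is
finite free over `K[[x₁,x₂,x₃]]`, `K` an ultraproduct of algebraically closed fields of growing
characteristics. -/
theorem no_free_step (U : Ultrafilter ℕ) (hU : (U : Filter ℕ) ≤ atTop) (p : ℕ → ℕ)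
    (hp : ∀ i, (p i).Prime) (hp' : Tendsto p atTop atTop) (k : ℕ → Type) [∀ i, Field (k i)]
    [∀ i, IsAlgClosed (k i)] [∀ i, CharP (k i) (p i)] [CharZero (UK U k)]
    (R : Type) [CommRing R] [Algebra (Bh (UK U k)) R]
    (c : r1S → Fin 3 → R) (s : Fin 17 → R) (G : (r1S → Bool) → R)
    (h : Rel (fun i => algebraMap (Bh (UK U k)) R (MvPowerSeries.X i)) c s G) (M : Type)
    [AddCommGroup M] [Module R M] [Module (Bh (UK U k)) M] [IsScalarTower (Bh (UK U k)) R M]
    [Module.Free (Bh (UK U k)) M] [Module.Finite (Bh (UK U k)) M] [Nontrivial M] : False := by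
  classical
  have hinf : Infinite (UK U k) := inferInstance
  have hac : IsAlgClosed (UK U k) := UK_isAlgClosed
  have hsq : ∀ z : UK U k, ∃ y : UK U k, y ^ 2 = z := fun z =>
    IsAlgClosed.exists_pow_nat_eq z (n := 2) (by norm_num)
  choose r hr using hsq
  let y0 : r1S × Fin 3 → UK U k := fun q => r ((cst q.1 q.2 : ℤ) : UK U k)
  have hy0 : ∀ q, y0 q ^ 2 = ((cst q.1 q.2 : ℤ) : UK U k) := fun q => hr _
  have hy0ne : ∀ q, y0 q ≠ 0 := fun q h0 => cst_ne q.1 q.2 (Int.cast_eq_zero.1 (by
    rw [← hy0, h0, zero_pow two_ne_zero] : ((cst q.1 q.2 : ℤ) : UK U k) = 0))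
  let C' : UK U k →+* Bh (UK U k) := MvPowerSeries.C (σ := Fin 3) (R := UK U k)
  obtain ⟨y', hy', N, hN, hN1, hN2, hN3⟩ := exists_eigen (A := Bh (UK U k)) (R := R)
    (M := M) (fun q : r1S × Fin 3 => C' (y0 q)) (by
      intro q
      have : (2 : Bh (UK U k)) * C' (y0 q) = C' (2 * y0 q) := by
        rw [map_mul, map_ofNat]
      rw [this]
      exact (isUnit_iff_ne_zero.2 (mul_ne_zero two_ne_zero (hy0ne q))).map C')
    (fun q => c q.1 q.2) (by
      intro q
      have h2 := h.c_sq q.1 q.2
      rw [h2, ← map_pow, hy0, map_intCast, map_intCast])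
  -- the signs
  have hex : ∀ q, ∃ z : UK U k, C' z = y' q ∧ z ^ 2 = ((cst q.1 q.2 : ℤ) : UK U k) := by
    intro q
    rcases hy' q with h2 | h2
    · exact ⟨y0 q, h2.symm, hy0 q⟩
    · exact ⟨- y0 q, by rw [h2, map_neg], by rw [neg_sq, hy0]⟩
  choose z hz1 hz2 using hex
  let I : Ideal R := Ideal.span (Set.range fun q : r1S × Fin 3 =>
    c q.1 q.2 - algebraMap (Bh (UK U k)) R (y' q))
  have htor : Module.IsTorsionBySet R N (I : Set R) := by
    rw [← Module.isTorsionBySet_iff_is_torsion_by_span]
    rintro x ⟨_, ⟨q, rfl⟩⟩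
    apply Subtype.ext
    change (c q.1 q.2 - algebraMap (Bh (UK U k)) R (y' q)) • (x : M) = 0
    rw [sub_smul, hN q x.1 x.2, sub_self]
  let _ : Module (R ⧸ I) N := htor.module
  have hst2 : IsScalarTower (Bh (UK U k)) (R ⧸ I) N := htor.isScalarTower
  have h3 := h.map (Ideal.Quotient.mk I)
  have hmk : ∀ a : Bh (UK U k), Ideal.Quotient.mk I (algebraMap (Bh (UK U k)) R a) =
      algebraMap (Bh (UK U k)) (R ⧸ I) a := fun a => rfl
  have hmkc : ∀ t j, Ideal.Quotient.mk I (c t j) =
      algebraMap (Bh (UK U k)) (R ⧸ I) (C' (z (t, j))) := by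
    intro t j
    rw [hz1, ← hmk]
    exact Ideal.Quotient.eq.2 (Ideal.subset_span ⟨(t, j), rfl⟩)
  simp only [hmkc, hmk] at h3
  exact no_RMod U hU p hp hp' k (arrOf (UK U k) (fun t j => z (t, j)) fun t j => hz2 (t, j))
    (R ⧸ I) (Rel.toRData _ _ h3) N

/-- If `B` maps to the power series ring over an ultraproduct of algebraically closed fields of
growing characteristics, and `R` is a `B`-algebra with the equations, then no nonzero `R`-module
is finite free over `B`. -/
theorem no_free_UK (U : Ultrafilter ℕ) (hU : (U : Filter ℕ) ≤ atTop) (p : ℕ → ℕ)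
    (hp : ∀ i, (p i).Prime) (hp' : Tendsto p atTop atTop) (k : ℕ → Type) [∀ i, Field (k i)]
    [∀ i, IsAlgClosed (k i)] [∀ i, CharP (k i) (p i)] [CharZero (UK U k)]
    (B R : Type) [CommRing B] [CommRing R] [Algebra B R]
    (π : B →+* Bh (UK U k)) (b : Fin 3 → B) (hb : ∀ i, π (b i) = MvPowerSeries.X i)
    (c : r1S → Fin 3 → R) (s : Fin 17 → R) (G : (r1S → Bool) → R)
    (h : Rel (fun i => algebraMap B R (b i)) c s G) (M : Type)
    [AddCommGroup M] [Module R M] [Module B M] [IsScalarTower B R M]
    [Module.Free B M] [Module.Finite B M] [Nontrivial M] : False := by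
  classical
  let A : Type := Bh (UK U k)
  let _ : CommRing A := inferInstanceAs (CommRing (Bh (UK U k)))
  let _ : Algebra B A := π.toAlgebra
  have hπ' : ∀ b : B, algebraMap B A b = π b := fun b => rfl
  -- the ring and the module after base change
  let f : R →ₐ[B] Module.End A (A ⊗[B] M) :=
    (Module.End.baseChangeHom B A M).comp (Algebra.lsmul B B M : R →ₐ[B] Module.End B M)
  have hf : ∀ (r : R) (a : A) (x : M), f r (a ⊗ₜ[B] x) = a ⊗ₜ[B] (r • x) := fun s a x => rfl
  let Φ : A ⊗[B] R →ₐ[A] Module.End A (A ⊗[B] M) :=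
    Algebra.TensorProduct.lift (Algebra.ofId A _) f fun a r => by
      rw [Algebra.ofId_apply]
      exact Algebra.commute_algebraMap_left a (f r)
  let _ : Module (A ⊗[B] R) (A ⊗[B] M) := Module.compHom _ Φ.toRingHom
  have hΦ : ∀ (r : A ⊗[B] R) (x : A ⊗[B] M), r • x = Φ r x := fun r x => rfl
  have hst : IsScalarTower A (A ⊗[B] R) (A ⊗[B] M) := ⟨fun a r x => by
    rw [hΦ, hΦ, map_smul, LinearMap.smul_apply]⟩
  have : Nontrivial (A ⊗[B] M) := by
    let bb := Module.Free.chooseBasis B M
    obtain ⟨i⟩ := bb.index_nonempty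
    exact ⟨⟨(bb.baseChange A) i, 0, (bb.baseChange A).ne_zero i⟩⟩
  let ι : R →+* A ⊗[B] R := (Algebra.TensorProduct.includeRight : R →ₐ[B] A ⊗[B] R).toRingHom
  have hι : ∀ b : B, ι (algebraMap B R b) = algebraMap A (A ⊗[B] R) (π b) := by
    intro b
    change (Algebra.TensorProduct.includeRight : R →ₐ[B] A ⊗[B] R) (algebraMap B R b) = _
    rw [AlgHom.commutes]
    rfl
  have h1 := h.map ι
  simp only [hι, hb] at h1
  exact no_free_step U hU p hp hp' k (A ⊗[B] R) _ _ _ h1 (A ⊗[B] M)

end Vale.Agent.P190.H455
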