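import Mathlib.RingTheory.Localization.Cardinality
import Vale.Agent.P190.H455.NoFree

/-!
# P190: every field of characteristic zero embeds into an ultraproduct of algebraically closed
fields of growing characteristics, and the resulting theorem over any base ring
-/

set_option autoImplicit false

open Filter Cardinal

namespace Vale.Agent.P190.H455

open Vale.Agent.P190.D

/-- A field of characteristic zero embeds in every algebraically closed uncountable field of
characteristic zero which is at least as large. -/
theorem exists_embedding_of_card_le (F K : Type) [Field F] [CharZero F] [Field K] [CharZero K]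
    [IsAlgClosed K] (hK : ℵ₀ < #K) (hFK : #F ≤ #K) : Nonempty (F →+* K) := by
  let L0 : Type := FractionRing (MvPolynomial K F)
  let _ : Field L0 := inferInstanceAs (Field (FractionRing (MvPolynomial K F)))
  let L : Type := AlgebraicClosure L0
  let _ : Field L := inferInstanceAs (Field (AlgebraicClosure L0))
  let _ : Algebra L0 L := inferInstanceAs (Algebra L0 (AlgebraicClosure L0))
  have hL1 : IsAlgClosed L := inferInstanceAs (IsAlgClosed (AlgebraicClosure L0))
  have hL2 : Algebra.IsAlgebraic L0 L :=
    inferInstanceAs (Algebra.IsAlgebraic L0 (AlgebraicClosure L0))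
  let i0 : MvPolynomial K F →+* L0 := algebraMap (MvPolynomial K F) (FractionRing (MvPolynomial K F))
  have hi0 : Function.Injective i0 := IsFractionRing.injective _ _
  let i : MvPolynomial K F →+* L := (algebraMap L0 L).comp i0
  have hi : Function.Injective i := (algebraMap L0 L).injective.comp hi0
  let iF : F →+* L := i.comp MvPolynomial.C
  have h0 : CharZero L := charZero_of_injective_ringHom iF.injective
  have h1 : #K ≤ #L := by
    refine mk_le_of_injective (f := fun x : K => i (MvPolynomial.X x)) ?_
    exact hi.comp (MvPolynomial.X_injective (R := F))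
  have h2 : #L0 = #(MvPolynomial K F) := IsFractionRing.cardinalMk (MvPolynomial K F)
    (FractionRing (MvPolynomial K F))
  have h3 : #L ≤ #K := by
    refine (Algebra.IsAlgebraic.cardinalMk_le_max L0 L).trans (max_le ?_ hK.le)
    rw [h2]
    exact MvPolynomial.cardinalMk_le_max.trans (max_le (max_le hFK le_rfl) hK.le)
  obtain ⟨e⟩ := IsAlgClosed.ringEquiv_of_equiv_of_charZero (K := L) (L := K) (hK.trans_le h1)
    (Cardinal.eq.1 (le_antisymm h3 h1))
  exact ⟨(e : L →+* K).comp iF⟩

/-- THE CORE THEOREM.  Let `F` be a field of characteristic zero, `B → F[[x₁,x₂,x₃]]` a ring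
homomorphism whose image contains the variables, and `R` a `B`-algebra with the equations.  Then
no nonzero `R`-module is finite free over `B`. -/
theorem no_free (F : Type) [Field F] [CharZero F]
    (B R : Type) [CommRing B] [CommRing R] [Algebra B R]
    (π : B →+* MvPowerSeries (Fin 3) F) (b : Fin 3 → B) (hb : ∀ i, π (b i) = MvPowerSeries.X i)
    (c : r1S → Fin 3 → R) (s : Fin 17 → R) (G : (r1S → Bool) → R)
    (h : Rel (fun i => algebraMap B R (b i)) c s G) (M : Type)
    [AddCommGroup M] [Module R M] [Module B M] [IsScalarTower B R M]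
    [Module.Free B M] [Module.Finite B M] [Nontrivial M] : False := by
  classical
  let p : ℕ → ℕ := fun i => Nat.nth Nat.Prime i
  have hp : ∀ i, (p i).Prime := fun i => Nat.prime_nth_prime i
  have hp' : Tendsto p atTop atTop :=
    (Nat.nth_strictMono Nat.infinite_setOfPred_prime).tendsto_atTop
  have : ∀ i, Fact (p i).Prime := fun i => ⟨hp i⟩
  let Q : ℕ → Type := fun i => MvPolynomial F (ZMod (p i))
  let k : ℕ → Type := fun i => AlgebraicClosure (FractionRing (MvPolynomial F (ZMod (p i))))
  let _ : ∀ i, Field (k i) := fun i =>
    inferInstanceAs (Field (AlgebraicClosure (FractionRing (MvPolynomial F (ZMod (p i))))))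
  have : ∀ i, IsAlgClosed (k i) := fun i =>
    inferInstanceAs (IsAlgClosed (AlgebraicClosure (FractionRing (MvPolynomial F (ZMod (p i))))))
  let j : ∀ i, MvPolynomial F (ZMod (p i)) →+* k i := fun i =>
    (algebraMap (FractionRing (MvPolynomial F (ZMod (p i))))
      (AlgebraicClosure (FractionRing (MvPolynomial F (ZMod (p i)))))).comp
      (algebraMap (MvPolynomial F (ZMod (p i))) (FractionRing (MvPolynomial F (ZMod (p i)))))
  have hj : ∀ i, Function.Injective (j i) := fun i =>
    (algebraMap (FractionRing (MvPolynomial F (ZMod (p i))))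
      (AlgebraicClosure (FractionRing (MvPolynomial F (ZMod (p i)))))).injective.comp
      (IsFractionRing.injective _ _)
  have : ∀ i, CharP (k i) (p i) := fun i =>
    charP_of_injective_ringHom (f := (j i).comp MvPolynomial.C)
      ((j i).comp MvPolynomial.C).injective (p i)
  let U : Ultrafilter ℕ := hyperfilter ℕ
  have hU : (U : Filter ℕ) ≤ atTop := Nat.hyperfilter_le_atTop
  have h0 : CharZero (UK U k) := UK_charZero hU p hp'
  have : ∀ i, Infinite (k i) := fun i => IsAlgClosed.instInfinite
  have hcard : 𝔠 ≤ #(UK U k) := UK_le_card hU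
  have hac : IsAlgClosed (UK U k) := UK_isAlgClosed
  have hFK : #F ≤ #(UK U k) := by
    refine mk_le_of_injective (f := fun x : F => ulim U k fun i => j i (MvPolynomial.X x)) ?_
    intro x y hxy
    obtain ⟨i, hi⟩ := (ulim_eq.1 hxy).exists
    exact MvPolynomial.X_injective (hj i hi)
  obtain ⟨φ⟩ := exists_embedding_of_card_le F (UK U k) (aleph0_lt_continuum.trans_le hcard) hFK
  refine no_free_UK U hU p hp hp' k B R ((MvPowerSeries.map (σ := Fin 3) φ).comp π) b ?_ c s G h M
  intro i
  rw [RingHom.comp_apply, hb, MvPowerSeries.map_X]

end Vale.Agent.P190.H455
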