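import Vale.Agent.P190.Bdl.B5

/-!
# P190: regular systems of parameters are quasi-regular (three elements)
-/

set_option autoImplicit false

namespace Vale.Agent.P190.H455

open IsLocalRing RingTheory.Sequence Vale.Agent.P190.D

/-- `x` is regular modulo the ideal `I` -/
def RegMod {B : Type} [CommRing B] (x : B) (I : Ideal B) : Prop := ∀ a, x * a ∈ I → a ∈ I

theorem span_sup_pow_le {B : Type} [CommRing B] (K : Ideal B) (y : B) (j : ℕ) :
    (Ideal.span {y} ⊔ K) ^ (j + 1) ≤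
      Ideal.span {y} * (Ideal.span {y} ⊔ K) ^ j ⊔ K ^ (j + 1) := by
  induction j with
  | zero => simp
  | succ j ih =>
    have h1 : (Ideal.span {y} ⊔ K) ^ (j + 1 + 1) =
        Ideal.span {y} * (Ideal.span {y} ⊔ K) ^ (j + 1) ⊔ K * (Ideal.span {y} ⊔ K) ^ (j + 1) := by
      rw [pow_succ' (Ideal.span {y} ⊔ K) (j + 1), Ideal.sup_mul]
    rw [h1]
    refine sup_le le_sup_left ?_
    refine (Ideal.mul_mono_right ih).trans ?_
    rw [Ideal.mul_sup]
    refine sup_le ?_ ?_
    · refine le_trans ?_ le_sup_left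
      rw [mul_left_comm]
      refine Ideal.mul_mono_right ?_
      rw [pow_succ' (Ideal.span {y} ⊔ K) j]
      exact Ideal.mul_mono_left le_sup_right
    · rw [← pow_succ' K (j + 1)]
      exact le_sup_right

theorem mem_sup_pow {B : Type} [CommRing B] {L K : Ideal B} {y z : B} {j : ℕ}
    (h : z ∈ L ⊔ (Ideal.span {y} ⊔ K) ^ (j + 1)) :
    ∃ l ∈ L, ∃ b ∈ (Ideal.span {y} ⊔ K) ^ j, ∃ c ∈ K ^ (j + 1), z = l + (y * b + c) := by
  obtain ⟨l, hl, w, hw, rfl⟩ := Submodule.mem_sup.1 h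
  obtain ⟨u, hu, c, hc, rfl⟩ := Submodule.mem_sup.1 (span_sup_pow_le K y j hw)
  obtain ⟨b, hb, rfl⟩ := Ideal.mem_span_singleton_mul.1 hu
  exact ⟨l, hl, b, hb, c, hc, rfl⟩

theorem regMod_step {B : Type} [CommRing B] (L K : Ideal B) (x y : B)
    (h1 : ∀ j : ℕ, RegMod y (L ⊔ K ^ j))
    (h2 : ∀ j : ℕ, RegMod x (L ⊔ Ideal.span {y} ⊔ K ^ j)) (j : ℕ) :
    RegMod x (L ⊔ (Ideal.span {y} ⊔ K) ^ j) := by
  induction j with
  | zero => intro a _; rw [pow_zero, Ideal.one_eq_top, sup_top_eq]; trivial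
  | succ j ih =>
    intro a ha
    obtain ⟨l, hl, b, hb, c, hc, h3⟩ := mem_sup_pow ha
    have hK : L ⊔ K ^ (j + 1) ≤ L ⊔ (Ideal.span {y} ⊔ K) ^ j :=
      sup_le_sup_left ((Ideal.pow_le_pow_right (Nat.le_succ j)).trans
        (Ideal.pow_right_mono le_sup_right j)) L
    have h4 : a ∈ L ⊔ Ideal.span {y} ⊔ K ^ (j + 1) := by
      apply h2 (j + 1)
      rw [h3]
      refine Ideal.add_mem _ (Ideal.mem_sup_left (Ideal.mem_sup_left hl)) (Ideal.add_mem _ ?_ ?_)
      · exact Ideal.mem_sup_left (Ideal.mem_sup_right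
          (Ideal.mul_mem_right _ _ (Ideal.mem_span_singleton_self y)))
      · exact Ideal.mem_sup_right hc
    obtain ⟨u, hu, c', hc', rfl⟩ := Submodule.mem_sup.1 h4
    obtain ⟨l', hl', v, hv, rfl⟩ := Submodule.mem_sup.1 hu
    obtain ⟨a', rfl⟩ := Ideal.mem_span_singleton'.1 hv
    have h5 : x * a' - b ∈ L ⊔ K ^ (j + 1) := by
      apply h1 (j + 1)
      have h6 : y * (x * a' - b) = (l - x * l') + (c - x * c') := by linear_combination h3
      rw [h6]
      exact Ideal.add_mem _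
        (Ideal.mem_sup_left (Ideal.sub_mem _ hl (Ideal.mul_mem_left _ _ hl')))
        (Ideal.mem_sup_right (Ideal.sub_mem _ hc (Ideal.mul_mem_left _ _ hc')))
    have h6 : a' ∈ L ⊔ (Ideal.span {y} ⊔ K) ^ j := by
      apply ih
      have h7 : x * a' = (x * a' - b) + b := by ring
      rw [h7]
      exact Ideal.add_mem _ (hK h5) (Ideal.mem_sup_right hb)
    refine Ideal.add_mem _ (Ideal.add_mem _ (Ideal.mem_sup_left hl') ?_)
      (Ideal.mem_sup_right (Ideal.pow_right_mono le_sup_right (j + 1) hc'))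
    obtain ⟨l2, hl2, w, hw, rfl⟩ := Submodule.mem_sup.1 h6
    rw [add_mul]
    refine Ideal.add_mem _ (Ideal.mem_sup_left (Ideal.mul_mem_right _ _ hl2))
      (Ideal.mem_sup_right ?_)
    rw [pow_succ]
    exact Ideal.mul_mem_mul hw (Ideal.mem_sup_left (Ideal.mem_span_singleton_self y))

theorem regMod_order {B : Type} [CommRing B] (L K : Ideal B) (x : B)
    (h : ∀ j : ℕ, RegMod x (L ⊔ K ^ j)) (n : ℕ) (a : B)
    (ha : x * a ∈ L ⊔ (Ideal.span {x} ⊔ K) ^ (n + 1)) : a ∈ L ⊔ (Ideal.span {x} ⊔ K) ^ n := by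
  obtain ⟨l, hl, b, hb, c, hc, h3⟩ := mem_sup_pow ha
  have h4 : a - b ∈ L ⊔ K ^ (n + 1) := by
    apply h (n + 1)
    have h5 : x * (a - b) = l + c := by linear_combination h3
    rw [h5]
    exact Ideal.add_mem _ (Ideal.mem_sup_left hl) (Ideal.mem_sup_right hc)
  have hK : L ⊔ K ^ (n + 1) ≤ L ⊔ (Ideal.span {x} ⊔ K) ^ n :=
    sup_le_sup_left ((Ideal.pow_le_pow_right (Nat.le_succ n)).trans
      (Ideal.pow_right_mono le_sup_right n)) L
  have h5 : a = (a - b) + b := by ring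
  rw [h5]
  exact Ideal.add_mem _ (hK h4) (Ideal.mem_sup_right hb)

theorem regMod_bot {B : Type} [CommRing B] {L : Ideal B} {x : B} (h : RegMod x L) (j : ℕ) :
    RegMod x (L ⊔ (⊥ : Ideal B) ^ j) := by
  cases j with
  | zero => intro a _; rw [pow_zero, Ideal.one_eq_top, sup_top_eq]; trivial
  | succ j => rw [Ideal.bot_pow (Nat.succ_ne_zero j), sup_bot_eq]; exact h

/-- elementwise form of weak regularity of three elements -/
theorem isWeaklyRegular_three {B : Type} [CommRing B] (x y z : B) :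
    IsWeaklyRegular B [x, y, z] ↔ RegMod x ⊥ ∧ RegMod y (Ideal.span {x}) ∧
      RegMod z (Ideal.span {x} ⊔ Ideal.span {y}) := by
  have key : ∀ (r : B) (I J : Ideal B), I = J →
      (IsSMulRegular (B ⧸ (I • ⊤ : Submodule B B)) r ↔ RegMod r J) := by
    intro r I J hIJ
    rw [isSMulRegular_quotient_iff_mem_of_smul_mem]
    subst hIJ
    have h1 : (I • ⊤ : Submodule B B) = I := by
      rw [smul_eq_mul, ← Ideal.one_eq_top, mul_one]
    rw [h1]
    exact Iff.rfl
  have e0 : Ideal.ofList (([x, y, z] : List B).take 0) = ⊥ := Ideal.ofList_nil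
  have e1 : Ideal.ofList (([x, y, z] : List B).take 1) = Ideal.span {x} :=
    Ideal.ofList_singleton x
  have e2 : Ideal.ofList (([x, y, z] : List B).take 2) = Ideal.span {x} ⊔ Ideal.span {y} := by
    change Ideal.ofList [x, y] = _
    rw [Ideal.ofList_cons, Ideal.ofList_singleton]
  rw [isWeaklyRegular_iff]
  constructor
  · intro h
    refine ⟨(key _ _ _ e0).1 (h 0 (by simp)), (key _ _ _ e1).1 (h 1 (by simp)),
      (key _ _ _ e2).1 (h 2 (by simp))⟩
  · rintro ⟨h0, h1, h2⟩ i hi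
    have hi' : i < 3 := by simpa using hi
    interval_cases i
    · exact (key _ _ _ e0).2 h0
    · exact (key _ _ _ e1).2 h1
    · exact (key _ _ _ e2).2 h2

variable {B : Type} [CommRing B] [IsLocalRing B] [IsNoetherianRing B] {x y z : B}

theorem ofList_three {B : Type} [CommRing B] (x y z : B) : Ideal.ofList [x, y, z] =
    Ideal.span {x} ⊔ (Ideal.span {y} ⊔ (Ideal.span {z} ⊔ ⊥)) := by
  rw [Ideal.ofList_cons, Ideal.ofList_cons, Ideal.ofList_cons, Ideal.ofList_nil]

theorem sup_sup_pow {B : Type} [CommRing B] (L K : Ideal B) (n : ℕ) :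
    L ⊔ (L ⊔ K) ^ n = L ⊔ K ^ n := by
  apply le_antisymm
  · refine sup_le le_sup_left ?_
    induction n with
    | zero => rw [pow_zero, pow_zero]; exact le_sup_right
    | succ n ih =>
      rw [pow_succ, pow_succ, Ideal.mul_sup]
      have h1 : (L ⊔ K) ^ n * L ≤ L ⊔ K ^ n * K :=
        le_trans (Ideal.mul_le_right) le_sup_left
      have h2 : (L ⊔ K) ^ n * K ≤ (L ⊔ K ^ n) * K := Ideal.mul_mono_left ih
      have h3 : (L ⊔ K ^ n) * K ≤ L ⊔ K ^ n * K := by
        rw [Ideal.sup_mul]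
        exact sup_le (le_trans (Ideal.mul_le_left) le_sup_left) le_sup_right
      exact sup_le h1 (h2.trans h3)
  · exact sup_le le_sup_left ((Ideal.pow_right_mono le_sup_right n).trans le_sup_right)

/-- the order of `x a` is at least the order of `a` plus one, exactly -/
theorem par_order (h : IsPar B [x, y, z]) :
    (∀ n a, x * a ∈ maximalIdeal B ^ (n + 1) → a ∈ maximalIdeal B ^ n) ∧
    (∀ n a, y * a ∈ Ideal.span {x} ⊔ maximalIdeal B ^ (n + 1) →
      a ∈ Ideal.span {x} ⊔ maximalIdeal B ^ n) ∧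
    (∀ n a, z * a ∈ Ideal.span {x} ⊔ Ideal.span {y} ⊔ maximalIdeal B ^ (n + 1) →
      a ∈ Ideal.span {x} ⊔ Ideal.span {y} ⊔ maximalIdeal B ^ n) := by
  have hm : ∀ r ∈ [x, y, z], r ∈ maximalIdeal B := by
    intro r hr
    rw [← h.gen]
    exact Ideal.subset_span hr
  have perm : ∀ l : List B, List.Perm [x, y, z] l → IsWeaklyRegular B l := fun l hl =>
    IsLocalRing.isWeaklyRegular_of_perm_of_subset_maximalIdeal h.reg hl hm
  obtain ⟨a0, a1, a2⟩ := (isWeaklyRegular_three x y z).1 h.reg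
  have p1 : List.Perm [x, y, z] [z, y, x] := (List.reverse_perm [x, y, z]).symm
  have p2 : List.Perm [x, y, z] [x, z, y] := (List.Perm.swap z y []).cons x
  have p3 : List.Perm [x, y, z] [y, z, x] := by
    have h1 : List.Perm [x, y, z] [y, x, z] := List.Perm.swap y x [z]
    exact h1.trans ((List.Perm.swap z x []).cons y)
  obtain ⟨b0, b1, b2⟩ := (isWeaklyRegular_three z y x).1 (perm _ p1)
  obtain ⟨c0, c1, c2⟩ := (isWeaklyRegular_three x z y).1 (perm _ p2)
  obtain ⟨d0, d1, d2⟩ := (isWeaklyRegular_three y z x).1 (perm _ p3)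
  have hg : maximalIdeal B = Ideal.span {x} ⊔ (Ideal.span {y} ⊔ (Ideal.span {z} ⊔ ⊥)) := by
    rw [← h.gen, ofList_three]
  refine ⟨?_, ?_, ?_⟩
  · intro n a ha
    have h1 : ∀ j : ℕ, RegMod x ((⊥ : Ideal B) ⊔
        (Ideal.span {y} ⊔ (Ideal.span {z} ⊔ ⊥)) ^ j) := by
      apply regMod_step
      · apply regMod_step
        · exact regMod_bot b0
        · apply regMod_bot
          rw [bot_sup_eq]
          exact b1
      · intro j
        apply regMod_step
        · apply regMod_bot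
          rw [bot_sup_eq]
          exact d1
        · apply regMod_bot
          rw [bot_sup_eq]
          exact d2
    have h2 := regMod_order ⊥ _ x h1 n a (by rw [bot_sup_eq, ← hg]; exact ha)
    rw [bot_sup_eq, ← hg] at h2
    exact h2
  · intro n a ha
    have h1 : ∀ j : ℕ, RegMod y (Ideal.span {x} ⊔ (Ideal.span {z} ⊔ ⊥) ^ j) := by
      apply regMod_step
      · exact regMod_bot c1
      · exact regMod_bot c2
    rw [hg, sup_sup_pow] at ha ⊢
    exact regMod_order _ _ y h1 n a ha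
  · intro n a ha
    have h1 : ∀ j : ℕ, RegMod z (Ideal.span {x} ⊔ Ideal.span {y} ⊔ (⊥ : Ideal B) ^ j) :=
      regMod_bot a2
    rw [hg, ← sup_assoc, sup_sup_pow] at ha ⊢
    exact regMod_order _ _ z h1 n a ha

end Vale.Agent.P190.H455
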