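import Vale.Agent.P190.H455.Rank1
import Mathlib.RingTheory.AdicCompletion.Basic
import Mathlib.Order.Filter.Ultrafilter.Basic

/-!
# P190: the ultraproduct of local rings modulo the intersection of the powers of its maximal ideal
is a complete local ring
-/

set_option autoImplicit false

open Filter

namespace Vale.Agent.P190.H455

open IsLocalRing RingTheory.Sequence Vale.Agent.P190.D

/-- Krull's intersection theorem modulo an ideal -/
theorem krull_mem {B : Type} [CommRing B] [IsLocalRing B] [IsNoetherianRing B]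
    (I : Ideal B) (b : B) (h : ∀ n : ℕ, b ∈ I ⊔ maximalIdeal B ^ n) : b ∈ I := by
  have h1 : Ideal.Quotient.mk I b ∈
      (⨅ i : ℕ, (maximalIdeal B) ^ i • (⊤ : Submodule B (B ⧸ I))) := by
    rw [Submodule.mem_iInf]
    intro m
    obtain ⟨u, hu, e, he, h2⟩ := Submodule.mem_sup.1 (h m)
    have h5 : Ideal.Quotient.mk I b = e • (1 : B ⧸ I) := by
      rw [Algebra.smul_def, mul_one]
      refine Ideal.Quotient.eq.2 ?_
      rw [← h2, add_sub_cancel_right]
      exact hu
    rw [h5]
    exact Submodule.smul_mem_smul he trivial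
  rw [Ideal.iInf_pow_smul_eq_bot_of_isLocalRing _ (Ideal.IsPrime.ne_top
    (inferInstance : (maximalIdeal B).IsPrime)), Submodule.mem_bot] at h1
  exact Ideal.Quotient.eq_zero_iff_mem.1 h1

variable (U : Ultrafilter ℕ) (B : ℕ → Type) [∀ i, CommRing (B i)] [∀ i, IsLocalRing (B i)]

/-- sequences which are almost always in the `n`-th power of the maximal ideal -/
def KK (n : ℕ) : Ideal (∀ i, B i) where
  carrier := {a | ∀ᶠ i in (U : Filter ℕ), a i ∈ maximalIdeal (B i) ^ n}
  zero_mem' := Eventually.of_forall fun i => Ideal.zero_mem _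
  add_mem' := fun {a b} ha hb => by
    filter_upwards [ha, hb] with i h1 h2 using Ideal.add_mem _ h1 h2
  smul_mem' := fun c a ha => by
    filter_upwards [ha] with i h1 using Ideal.mul_mem_left _ _ h1

variable {U B}

theorem mem_KK {n : ℕ} {a : ∀ i, B i} :
    a ∈ KK U B n ↔ ∀ᶠ i in (U : Filter ℕ), a i ∈ maximalIdeal (B i) ^ n := Iff.rfl

variable (U B)

/-- infinitesimal sequences -/
def JJ : Ideal (∀ i, B i) := ⨅ n, KK U B n

/-- the complete local ring -/
abbrev CC : Type := (∀ i, B i) ⧸ JJ U B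

variable {U B}

theorem mem_JJ {a : ∀ i, B i} : a ∈ JJ U B ↔ ∀ n, a ∈ KK U B n := by
  unfold JJ
  rw [Ideal.mem_iInf]

theorem mem_JJ_of_eventually {a : ∀ i, B i} (h : ∀ᶠ i in (U : Filter ℕ), a i = 0) :
    a ∈ JJ U B := by
  rw [mem_JJ]
  intro n
  rw [mem_KK]
  filter_upwards [h] with i hi
  rw [hi]
  exact Ideal.zero_mem _

theorem one_notMem_KK : (1 : ∀ i, B i) ∉ KK U B 1 := by
  intro h
  have h1 : ∀ᶠ i in (U : Filter ℕ), False := by
    filter_upwards [mem_KK.1 h] with i hi
    rw [pow_one] at hi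
    exact (Ideal.ne_top_iff_one _).1 (maximalIdeal.isMaximal (B i)).ne_top hi
  exact (Filter.eventually_false_iff_eq_bot.1 h1 |> NeBot.ne inferInstance)

theorem isUnit_of_notMem_KK {a : ∀ i, B i} (h : a ∉ KK U B 1) :
    IsUnit (Ideal.Quotient.mk (JJ U B) a) := by
  rw [mem_KK, ← Ultrafilter.eventually_not] at h
  refine IsUnit.of_mul_eq_one (Ideal.Quotient.mk (JJ U B) fun i => Ring.inverse (a i)) ?_
  rw [← map_mul, ← map_one (Ideal.Quotient.mk (JJ U B)), Ideal.Quotient.eq]
  apply mem_JJ_of_eventually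
  filter_upwards [h] with i hi
  rw [pow_one, mem_maximalIdeal, mem_nonunits_iff, not_not] at hi
  rw [Pi.sub_apply, Pi.mul_apply, Pi.one_apply, Ring.mul_inverse_cancel _ hi, sub_self]

theorem not_isUnit_of_mem_KK {a : ∀ i, B i} (h : a ∈ KK U B 1) :
    ¬ IsUnit (Ideal.Quotient.mk (JJ U B) a) := by
  intro hu
  obtain ⟨c, hc⟩ := hu.exists_right_inv
  obtain ⟨b, rfl⟩ := Ideal.Quotient.mk_surjective c
  rw [← map_mul, ← map_one (Ideal.Quotient.mk (JJ U B)), Ideal.Quotient.eq] at hc
  apply one_notMem_KK (U := U) (B := B)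
  have h1 := mem_JJ.1 hc 1
  have h2 : (1 : ∀ i, B i) = a * b - (a * b - 1) := by ring
  rw [h2]
  exact Ideal.sub_mem _ (Ideal.mul_mem_right _ _ h) h1

instance : Nontrivial (CC U B) := by
  refine Ideal.Quotient.nontrivial_iff.2 ?_
  rw [Ne, Ideal.eq_top_iff_one]
  intro h
  exact one_notMem_KK (mem_JJ.1 h 1)

instance : IsLocalRing (CC U B) := by
  refine IsLocalRing.of_isUnit_or_isUnit_one_sub_self fun c => ?_
  obtain ⟨a, rfl⟩ := Ideal.Quotient.mk_surjective c
  by_cases h : a ∈ KK U B 1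
  · right
    rw [← map_one (Ideal.Quotient.mk (JJ U B)), ← map_sub]
    apply isUnit_of_notMem_KK
    intro h1
    apply one_notMem_KK (U := U) (B := B)
    have h2 : (1 : ∀ i, B i) = (1 - a) + a := by ring
    rw [h2]
    exact Ideal.add_mem _ h1 h
  · left
    exact isUnit_of_notMem_KK h

theorem mk_mem_max {a : ∀ i, B i} :
    Ideal.Quotient.mk (JJ U B) a ∈ maximalIdeal (CC U B) ↔ a ∈ KK U B 1 := by
  rw [mem_maximalIdeal, mem_nonunits_iff]
  constructor
  · intro h
    by_contra h1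
    exact h (isUnit_of_notMem_KK h1)
  · exact not_isUnit_of_mem_KK

theorem KK_mul {m n : ℕ} {a b : ∀ i, B i} (ha : a ∈ KK U B m) (hb : b ∈ KK U B n) :
    a * b ∈ KK U B (m + n) := by
  rw [mem_KK]
  filter_upwards [mem_KK.1 ha, mem_KK.1 hb] with i h1 h2
  rw [Pi.mul_apply, pow_add]
  exact Ideal.mul_mem_mul h1 h2

theorem mem_KK_of_mk_mem {n : ℕ} {a : ∀ i, B i}
    (h : Ideal.Quotient.mk (JJ U B) a ∈ (KK U B n).map (Ideal.Quotient.mk (JJ U B))) :
    a ∈ KK U B n := by
  obtain ⟨b, hb, h1⟩ := (Ideal.mem_map_iff_of_surjective _ Ideal.Quotient.mk_surjective).1 h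
  rw [Ideal.Quotient.eq] at h1
  have h2 : a = b - (b - a) := by ring
  rw [h2]
  exact Ideal.sub_mem _ hb (mem_JJ.1 h1 n)

theorem max_pow_le (n : ℕ) :
    maximalIdeal (CC U B) ^ n ≤ (KK U B n).map (Ideal.Quotient.mk (JJ U B)) := by
  induction n with
  | zero =>
    intro c _
    obtain ⟨a, rfl⟩ := Ideal.Quotient.mk_surjective c
    apply Ideal.mem_map_of_mem
    rw [mem_KK]
    refine Eventually.of_forall fun i => ?_
    rw [pow_zero, Ideal.one_eq_top]
    trivial
  | succ n ih =>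
    rw [pow_succ, Ideal.mul_le]
    intro r hr s hs
    obtain ⟨a, ha, rfl⟩ := (Ideal.mem_map_iff_of_surjective _ Ideal.Quotient.mk_surjective).1
      (ih hr)
    obtain ⟨b, rfl⟩ := Ideal.Quotient.mk_surjective s
    rw [mk_mem_max] at hs
    rw [← map_mul]
    exact Ideal.mem_map_of_mem _ (KK_mul ha hs)

section par

variable {x y z : ∀ i, B i}

theorem KK_succ (h : ∀ i, IsPar (B i) [x i, y i, z i]) {n : ℕ} {a : ∀ i, B i}
    (ha : a ∈ KK U B (n + 1)) : ∃ b ∈ KK U B n, ∃ c ∈ KK U B n, ∃ d ∈ KK U B n,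
      a - (x * b + y * c + z * d) ∈ JJ U B := by
  have h1 : ∀ i, ∃ b c d : B i, a i ∈ maximalIdeal (B i) ^ (n + 1) →
      b ∈ maximalIdeal (B i) ^ n ∧ c ∈ maximalIdeal (B i) ^ n ∧ d ∈ maximalIdeal (B i) ^ n ∧
      a i = x i * b + y i * c + z i * d := by
    intro i
    by_cases hi : a i ∈ maximalIdeal (B i) ^ (n + 1)
    · have hg : maximalIdeal (B i) =
          Ideal.span {x i} ⊔ (Ideal.span {y i} ⊔ (Ideal.span {z i} ⊔ ⊥)) := by
        rw [← (h i).gen, ofList_three]
      have h2 := hi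
      rw [pow_succ'] at h2
      nth_rw 1 [hg] at h2
      rw [sup_bot_eq, Ideal.sup_mul, Ideal.sup_mul] at h2
      obtain ⟨u, hu, v, hv, huv⟩ := Submodule.mem_sup.1 h2
      obtain ⟨v1, hv1, v2, hv2, hv3⟩ := Submodule.mem_sup.1 hv
      obtain ⟨b, hb, rfl⟩ := Ideal.mem_span_singleton_mul.1 hu
      obtain ⟨c, hc, rfl⟩ := Ideal.mem_span_singleton_mul.1 hv1
      obtain ⟨d, hd, rfl⟩ := Ideal.mem_span_singleton_mul.1 hv2
      exact ⟨b, c, d, fun _ => ⟨hb, hc, hd, by rw [← huv, ← hv3]; ring⟩⟩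
    · exact ⟨0, 0, 0, fun h3 => absurd h3 hi⟩
  choose b c d hbcd using h1
  have h2 := mem_KK.1 ha
  refine ⟨b, ?_, c, ?_, d, ?_, ?_⟩
  · rw [mem_KK]; filter_upwards [h2] with i hi using (hbcd i hi).1
  · rw [mem_KK]; filter_upwards [h2] with i hi using (hbcd i hi).2.1
  · rw [mem_KK]; filter_upwards [h2] with i hi using (hbcd i hi).2.2.1
  · apply mem_JJ_of_eventually
    filter_upwards [h2] with i hi
    have h3 := (hbcd i hi).2.2.2
    simp only [Pi.sub_apply, Pi.add_apply, Pi.mul_apply]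
    rw [← h3, sub_self]

theorem par_mem_KK (h : ∀ i, IsPar (B i) [x i, y i, z i]) :
    x ∈ KK U B 1 ∧ y ∈ KK U B 1 ∧ z ∈ KK U B 1 := by
  have key : ∀ i, ∀ r ∈ [x i, y i, z i], r ∈ maximalIdeal (B i) ^ 1 := by
    intro i r hr
    rw [pow_one, ← (h i).gen]
    exact Ideal.subset_span hr
  exact ⟨mem_KK.2 (Eventually.of_forall fun i => key i _ (by simp)),
    mem_KK.2 (Eventually.of_forall fun i => key i _ (by simp)),
    mem_KK.2 (Eventually.of_forall fun i => key i _ (by simp))⟩

theorem mk_mem_pow (h : ∀ i, IsPar (B i) [x i, y i, z i]) (n : ℕ) {a : ∀ i, B i} :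
    Ideal.Quotient.mk (JJ U B) a ∈ maximalIdeal (CC U B) ^ n ↔ a ∈ KK U B n := by
  obtain ⟨hx, hy, hz⟩ := par_mem_KK (U := U) h
  constructor
  · intro h1
    exact mem_KK_of_mk_mem (max_pow_le n h1)
  · induction n generalizing a with
    | zero => intro _; rw [pow_zero, Ideal.one_eq_top]; trivial
    | succ n ih =>
      intro ha
      obtain ⟨b, hb, c, hc, d, hd, h1⟩ := KK_succ h ha
      rw [Ideal.Quotient.eq.2 h1, map_add, map_add, map_mul, map_mul, map_mul, pow_succ']
      exact Ideal.add_mem _ (Ideal.add_mem _ (Ideal.mul_mem_mul (mk_mem_max.2 hx) (ih hb))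
        (Ideal.mul_mem_mul (mk_mem_max.2 hy) (ih hc)))
        (Ideal.mul_mem_mul (mk_mem_max.2 hz) (ih hd))

/-- The maximal ideal of the limit is generated by the limit of the parameters. -/
theorem ofList_CC (h : ∀ i, IsPar (B i) [x i, y i, z i]) :
    Ideal.ofList [Ideal.Quotient.mk (JJ U B) x, Ideal.Quotient.mk (JJ U B) y,
      Ideal.Quotient.mk (JJ U B) z] = maximalIdeal (CC U B) := by
  obtain ⟨hx, hy, hz⟩ := par_mem_KK (U := U) h
  rw [ofList_three]
  apply le_antisymm
  · refine sup_le ?_ (sup_le ?_ (sup_le ?_ bot_le)) <;>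
      rw [Ideal.span_singleton_le_iff_mem, mk_mem_max]
    exacts [hx, hy, hz]
  · intro c hc
    obtain ⟨a, rfl⟩ := Ideal.Quotient.mk_surjective c
    rw [mk_mem_max] at hc
    obtain ⟨b, hb, c, hc, d, hd, h1⟩ := KK_succ (n := 0) h hc
    rw [Ideal.Quotient.eq.2 h1, map_add, map_add, map_mul, map_mul, map_mul, add_assoc]
    refine Ideal.add_mem _ (Ideal.mem_sup_left ?_) (Ideal.mem_sup_right
      (Ideal.add_mem _ (Ideal.mem_sup_left ?_) (Ideal.mem_sup_right (Ideal.mem_sup_left ?_)))) <;>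
      exact Ideal.mul_mem_right _ _ (Ideal.mem_span_singleton_self _)

/-- the limit is complete -/
theorem isAdicComplete_CC (hU : (U : Filter ℕ) ≤ atTop)
    (h : ∀ i, IsPar (B i) [x i, y i, z i]) :
    IsAdicComplete (maximalIdeal (CC U B)) (CC U B) := by
  have hst : ∀ (n : ℕ) (c d : CC U B), (c ≡ d [SMOD (maximalIdeal (CC U B) ^ n • ⊤ :
      Submodule (CC U B) (CC U B))]) ↔ c - d ∈ maximalIdeal (CC U B) ^ n := by
    intro n c d
    rw [SModEq.sub_mem, smul_eq_mul, ← Ideal.one_eq_top, mul_one]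
  refine { haus' := ?_, prec' := ?_ }
  · intro c hc
    obtain ⟨a, rfl⟩ := Ideal.Quotient.mk_surjective c
    rw [Ideal.Quotient.eq_zero_iff_mem, mem_JJ]
    intro n
    have h1 := (hst n _ _).1 (hc n)
    rw [sub_zero] at h1
    exact (mk_mem_pow h n).1 h1
  · intro f hf
    choose a ha using fun n => Ideal.Quotient.mk_surjective (I := JJ U B) (f n)
    have h1 : ∀ n, a n - a (n + 1) ∈ KK U B n := by
      intro n
      rw [← mk_mem_pow h n, map_sub, ha, ha]
      exact (hst n _ _).1 (hf (Nat.le_succ n))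
    classical
    let Q : ℕ → ℕ → Prop := fun i n => ∀ m < n, (a m - a (m + 1)) i ∈ maximalIdeal (B i) ^ m
    let s : ℕ → ℕ := fun i => Nat.findGreatest (Q i) i
    have hs : ∀ i, Q i (s i) := fun i =>
      Nat.findGreatest_spec (P := Q i) (Nat.zero_le i) (fun m hm => absurd hm (Nat.not_lt_zero m))
    have hs2 : ∀ n, ∀ᶠ i in (U : Filter ℕ), n ≤ s i := by
      intro n
      have h2 : ∀ᶠ i in (U : Filter ℕ), ∀ m ∈ Finset.range n,
          (a m - a (m + 1)) i ∈ maximalIdeal (B i) ^ m := by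
        rw [Filter.eventually_all_finset]
        intro m _
        exact mem_KK.1 (h1 m)
      filter_upwards [h2, hU (eventually_ge_atTop n)] with i h3 h4
      exact Nat.le_findGreatest h4 fun m hm => h3 m (Finset.mem_range.2 hm)
    have htel : ∀ (i m n : ℕ), m ≤ n → Q i n → a m i - a n i ∈ maximalIdeal (B i) ^ m := by
      intro i m n hmn
      induction n, hmn using Nat.le_induction with
      | base => intro _; rw [sub_self]; exact Ideal.zero_mem _
      | succ n hmn ih =>
        intro hQ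
        have h2 := ih fun l hl => hQ l (hl.trans (Nat.lt_succ_self n))
        have h3 := hQ n (Nat.lt_succ_self n)
        have h4 : a m i - a (n + 1) i = (a m i - a n i) + (a n - a (n + 1)) i := by
          rw [Pi.sub_apply]; ring
        rw [h4]
        exact Ideal.add_mem _ h2 (Ideal.pow_le_pow_right hmn h3)
    refine ⟨Ideal.Quotient.mk (JJ U B) fun i => a (s i) i, fun n => ?_⟩
    rw [hst, ← ha n, ← map_sub, mk_mem_pow h, mem_KK]
    filter_upwards [hs2 n] with i hi
    exact htel i n (s i) hi (hs i)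

/-- The limit of the parameters is a regular sequence, if the limit is Noetherian. -/
theorem isPar_CC [∀ i, IsNoetherianRing (B i)] [IsNoetherianRing (CC U B)]
    (h : ∀ i, IsPar (B i) [x i, y i, z i]) :
    IsPar (CC U B) [Ideal.Quotient.mk (JJ U B) x, Ideal.Quotient.mk (JJ U B) y,
      Ideal.Quotient.mk (JJ U B) z] := by
  refine ⟨?_, ofList_CC h⟩
  have krull : ∀ (I : Ideal (CC U B)) (b : CC U B),
      (∀ n, b ∈ I ⊔ maximalIdeal (CC U B) ^ n) → b ∈ I := fun I b hb => krull_mem I b hb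
  -- membership modulo one or two elements
  have one : ∀ (r a : ∀ i, B i) (n : ℕ), Ideal.Quotient.mk (JJ U B) a ∈
      Ideal.span {Ideal.Quotient.mk (JJ U B) r} ⊔ maximalIdeal (CC U B) ^ n ↔
      ∀ᶠ i in (U : Filter ℕ), a i ∈ Ideal.span {r i} ⊔ maximalIdeal (B i) ^ n := by
    intro r a n
    constructor
    · intro h1
      obtain ⟨u, hu, e, he, h2⟩ := Submodule.mem_sup.1 h1
      obtain ⟨v, rfl⟩ := Ideal.mem_span_singleton'.1 hu
      obtain ⟨v, rfl⟩ := Ideal.Quotient.mk_surjective v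
      obtain ⟨e, rfl⟩ := Ideal.Quotient.mk_surjective e
      rw [mk_mem_pow h] at he
      rw [← map_mul, ← map_add, eq_comm, Ideal.Quotient.eq] at h2
      filter_upwards [mem_KK.1 he, mem_KK.1 (mem_JJ.1 h2 n)] with i h3 h4
      have h5 : a i = v i * r i + (e i + (a - (v * r + e)) i) := by
        simp only [Pi.sub_apply, Pi.add_apply, Pi.mul_apply]; ring
      rw [h5]
      exact Ideal.add_mem _ (Ideal.mem_sup_left
        (Ideal.mul_mem_left _ _ (Ideal.mem_span_singleton_self _)))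
        (Ideal.mem_sup_right (Ideal.add_mem _ h3 h4))
    · intro h1
      have h2 : ∀ i, ∃ v : B i, a i ∈ Ideal.span {r i} ⊔ maximalIdeal (B i) ^ n →
          a i - v * r i ∈ maximalIdeal (B i) ^ n := by
        intro i
        by_cases hi : a i ∈ Ideal.span {r i} ⊔ maximalIdeal (B i) ^ n
        · obtain ⟨u, hu, e, he, h2⟩ := Submodule.mem_sup.1 hi
          obtain ⟨v, rfl⟩ := Ideal.mem_span_singleton'.1 hu
          exact ⟨v, fun _ => by rw [← h2, add_sub_cancel_left]; exact he⟩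
        · exact ⟨0, fun h3 => absurd h3 hi⟩
      choose v hv using h2
      have h3 : Ideal.Quotient.mk (JJ U B) (a - v * r) ∈ maximalIdeal (CC U B) ^ n := by
        rw [mk_mem_pow h, mem_KK]
        filter_upwards [h1] with i hi using hv i hi
      have h4 : Ideal.Quotient.mk (JJ U B) a = Ideal.Quotient.mk (JJ U B) v *
          Ideal.Quotient.mk (JJ U B) r + Ideal.Quotient.mk (JJ U B) (a - v * r) := by
        rw [← map_mul, ← map_add]; congr 1; ring
      rw [h4]
      exact Ideal.add_mem _ (Ideal.mem_sup_left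
        (Ideal.mul_mem_left _ _ (Ideal.mem_span_singleton_self _))) (Ideal.mem_sup_right h3)
  have two : ∀ (r t a : ∀ i, B i) (n : ℕ), Ideal.Quotient.mk (JJ U B) a ∈
      Ideal.span {Ideal.Quotient.mk (JJ U B) r} ⊔ Ideal.span {Ideal.Quotient.mk (JJ U B) t} ⊔
        maximalIdeal (CC U B) ^ n ↔
      ∀ᶠ i in (U : Filter ℕ), a i ∈ Ideal.span {r i} ⊔ Ideal.span {t i} ⊔
        maximalIdeal (B i) ^ n := by
    intro r t a n
    constructor
    · intro h1
      obtain ⟨u, hu, e, he, h2⟩ := Submodule.mem_sup.1 h1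
      obtain ⟨u1, hu1, u2, hu2, h3⟩ := Submodule.mem_sup.1 hu
      obtain ⟨v, rfl⟩ := Ideal.mem_span_singleton'.1 hu1
      obtain ⟨w, rfl⟩ := Ideal.mem_span_singleton'.1 hu2
      obtain ⟨v, rfl⟩ := Ideal.Quotient.mk_surjective v
      obtain ⟨w, rfl⟩ := Ideal.Quotient.mk_surjective w
      obtain ⟨e, rfl⟩ := Ideal.Quotient.mk_surjective e
      rw [mk_mem_pow h] at he
      rw [← h3, ← map_mul, ← map_mul, ← map_add, ← map_add, eq_comm, Ideal.Quotient.eq] at h2
      filter_upwards [mem_KK.1 he, mem_KK.1 (mem_JJ.1 h2 n)] with i h4 h5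
      have h6 : a i = v i * r i + w i * t i + (e i + (a - (v * r + w * t + e)) i) := by
        simp only [Pi.sub_apply, Pi.add_apply, Pi.mul_apply]; ring
      rw [h6]
      exact Ideal.add_mem _ (Ideal.mem_sup_left (Ideal.add_mem _
        (Ideal.mem_sup_left (Ideal.mul_mem_left _ _ (Ideal.mem_span_singleton_self _)))
        (Ideal.mem_sup_right (Ideal.mul_mem_left _ _ (Ideal.mem_span_singleton_self _)))))
        (Ideal.mem_sup_right (Ideal.add_mem _ h4 h5))
    · intro h1
      have h2 : ∀ i, ∃ v w : B i, a i ∈ Ideal.span {r i} ⊔ Ideal.span {t i} ⊔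
          maximalIdeal (B i) ^ n → a i - (v * r i + w * t i) ∈ maximalIdeal (B i) ^ n := by
        intro i
        by_cases hi : a i ∈ Ideal.span {r i} ⊔ Ideal.span {t i} ⊔ maximalIdeal (B i) ^ n
        · obtain ⟨u, hu, e, he, h2⟩ := Submodule.mem_sup.1 hi
          obtain ⟨u1, hu1, u2, hu2, h3⟩ := Submodule.mem_sup.1 hu
          obtain ⟨v, rfl⟩ := Ideal.mem_span_singleton'.1 hu1
          obtain ⟨w, rfl⟩ := Ideal.mem_span_singleton'.1 hu2
          exact ⟨v, w, fun _ => by rw [← h2, ← h3, add_sub_cancel_left]; exact he⟩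
        · exact ⟨0, 0, fun h3 => absurd h3 hi⟩
      choose v w hvw using h2
      have h3 : Ideal.Quotient.mk (JJ U B) (a - (v * r + w * t)) ∈
          maximalIdeal (CC U B) ^ n := by
        rw [mk_mem_pow h, mem_KK]
        filter_upwards [h1] with i hi using hvw i hi
      have h4 : Ideal.Quotient.mk (JJ U B) a = (Ideal.Quotient.mk (JJ U B) v *
          Ideal.Quotient.mk (JJ U B) r + Ideal.Quotient.mk (JJ U B) w *
          Ideal.Quotient.mk (JJ U B) t) + Ideal.Quotient.mk (JJ U B) (a - (v * r + w * t)) := by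
        rw [← map_mul, ← map_mul, ← map_add, ← map_add]; congr 1; ring
      rw [h4]
      exact Ideal.add_mem _ (Ideal.mem_sup_left (Ideal.add_mem _
        (Ideal.mem_sup_left (Ideal.mul_mem_left _ _ (Ideal.mem_span_singleton_self _)))
        (Ideal.mem_sup_right (Ideal.mul_mem_left _ _ (Ideal.mem_span_singleton_self _)))))
        (Ideal.mem_sup_right h3)
  rw [isWeaklyRegular_three]
  refine ⟨?_, ?_, ?_⟩
  · intro c hc
    obtain ⟨a, rfl⟩ := Ideal.Quotient.mk_surjective c
    rw [Ideal.mem_bot, ← map_mul, Ideal.Quotient.eq_zero_iff_mem, mem_JJ] at hc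
    rw [Ideal.mem_bot, Ideal.Quotient.eq_zero_iff_mem, mem_JJ]
    intro n
    filter_upwards [mem_KK.1 (hc (n + 1))] with i hi
    exact (par_order (h i)).1 n (a i) hi
  · intro c hc
    obtain ⟨a, rfl⟩ := Ideal.Quotient.mk_surjective c
    apply krull
    intro n
    rw [one]
    have h1 := (one x (y * a) (n + 1)).1 (by rw [map_mul]; exact Ideal.mem_sup_left hc)
    filter_upwards [h1] with i hi
    exact (par_order (h i)).2.1 n (a i) hi
  · intro c hc
    obtain ⟨a, rfl⟩ := Ideal.Quotient.mk_surjective c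
    apply krull
    intro n
    rw [two]
    have h1 := (two x y (z * a) (n + 1)).1 (by rw [map_mul]; exact Ideal.mem_sup_left hc)
    filter_upwards [h1] with i hi
    exact (par_order (h i)).2.2 n (a i) hi

end par

end Vale.Agent.P190.H455
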