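import Vale.Agent.P190.H455.Rank2
import Vale.Agent.P190.H455.Series
import Vale.Agent.P190.H231.Coeff
import Vale.Agent.P190.H128.E7
import Mathlib.RingTheory.KrullDimension.NonZeroDivisors

/-!
# P190: the limit of three-dimensional regular local rings of growing residue characteristics is a
power series ring in three variables over a field of characteristic zero
-/

set_option autoImplicit false

open Filter

namespace Vale.Agent.P190.H455

open IsLocalRing RingTheory.Sequence Vale.Agent.P190 Vale.Agent.P190.D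

/-- A complete local ring with residue field of characteristic zero, whose maximal ideal is
generated by three elements and which has dimension three as soon as it is Noetherian, is the
power series ring in these elements. -/
theorem exists_powerSeries_equiv (C : Type) [CommRing C] [IsLocalRing C]
    (hC : IsAdicComplete (maximalIdeal C) C) (hu : ∀ n : ℕ, n ≠ 0 → IsUnit ((n : ℕ) : C))
    (x y z : C) (hgen : Ideal.ofList [x, y, z] = maximalIdeal C)
    (hpar : IsNoetherianRing C → IsPar C [x, y, z]) :
    ∃ (K : Type) (_ : Field K) (_ : CharZero K) (e : MvPowerSeries (Fin 3) K ≃+* C),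
      e (MvPowerSeries.X 0) = x ∧ e (MvPowerSeries.X 1) = y ∧ e (MvPowerSeries.X 2) = z := by
  have hu2 : ∀ y : nonZeroDivisors ℤ, IsUnit (Int.castRingHom C y) := by
    rintro ⟨y, hy⟩
    have hy0 : y ≠ 0 := nonZeroDivisors.ne_zero hy
    have h1 := hu y.natAbs (by omega)
    change IsUnit ((y : ℤ) : C)
    rcases Int.natAbs_eq y with h2 | h2
    · rw [h2, Int.cast_natCast]; exact h1
    · rw [h2, Int.cast_neg, Int.cast_natCast]; exact h1.neg
  let q : ℚ →+* C := IsLocalization.lift (M := nonZeroDivisors ℤ) hu2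
  let _ : Algebra ℚ C := q.toAlgebra
  obtain ⟨K, iK, hK0, f, hf⟩ := Vale.Agent.P190.H231.exists_coefficientField C hC
  have hmem : ∀ r ∈ [x, y, z], r ∈ maximalIdeal C := by
    intro r hr
    rw [← hgen]
    exact Ideal.subset_span hr
  obtain ⟨φ, hφC, hφX⟩ := H128.exists_eval (maximalIdeal C) hC f (n := 3) ![x, y, z] (by
    intro i
    fin_cases i <;> apply hmem <;> simp)
  have hφ0 : φ (MvPowerSeries.X 0) = x := hφX 0
  have hφ1 : φ (MvPowerSeries.X 1) = y := hφX 1
  have hφ2 : φ (MvPowerSeries.X 2) = z := hφX 2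
  have hA := (goodBase_field K).mvPowerSeries 3
  have i1 := hA.dom
  have i2 := hA.loc
  have i3 := hA.noeth
  have hAc := hA.complete
  obtain ⟨ys, hys, hpys⟩ := hA.par
  have hdimA : ringKrullDim (MvPowerSeries (Fin 3) K) = (3 : ℕ) := by
    rw [n1_ringKrullDim_B hpys, hys]
  -- the image of the maximal ideal
  have hX : ∀ i : Fin 3, (MvPowerSeries.X i : MvPowerSeries (Fin 3) K) ∈
      maximalIdeal (MvPowerSeries (Fin 3) K) := by
    intro i
    rw [mem_maximalIdeal, mem_nonunits_iff, MvPowerSeries.isUnit_iff_constantCoeff,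
      MvPowerSeries.constantCoeff_X]
    exact not_isUnit_zero
  have hmax : (maximalIdeal (MvPowerSeries (Fin 3) K)).map φ = maximalIdeal C := by
    apply le_antisymm
    · rw [Ideal.map_le_iff_le_comap]
      intro g hg
      rw [Ideal.mem_comap, mem_maximalIdeal, mem_nonunits_iff]
      intro hunit
      have h1 : residue C (φ g) = 0 := by
        have h2 : MvPowerSeries.constantCoeff g = 0 := by
          by_contra h3
          rw [mem_maximalIdeal, mem_nonunits_iff, MvPowerSeries.isUnit_iff_constantCoeff] at hg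
          exact hg (isUnit_iff_ne_zero.2 h3)
        obtain ⟨w, hw⟩ : ∃ w : Fin 3 → MvPowerSeries (Fin 3) K,
            g = ∑ i, MvPowerSeries.X i * w i := by
          have h4 : g ∈ Ideal.ofList (H128.vars 3 K) := by
            rw [H128.ofList_vars]
            exact h2
          unfold Ideal.ofList at h4
          have h5 : {r | r ∈ H128.vars 3 K} =
              Set.range (fun i : Fin 3 => (MvPowerSeries.X i : MvPowerSeries (Fin 3) K)) := by
            ext r
            simp [H128.vars]
          rw [h5, Ideal.mem_span_range_iff_exists_fun] at h4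
          obtain ⟨c, hc⟩ := h4
          exact ⟨c, by rw [← hc]; exact Finset.sum_congr rfl fun i _ => mul_comm _ _⟩
        rw [hw, map_sum, map_sum]
        refine Finset.sum_eq_zero fun i _ => ?_
        rw [map_mul, map_mul]
        have h5 : residue C (φ (MvPowerSeries.X i)) = 0 := by
          rw [residue_eq_zero_iff, hφX]
          apply hmem
          fin_cases i <;> simp
        rw [h5, zero_mul]
      rw [residue_eq_zero_iff, mem_maximalIdeal, mem_nonunits_iff] at h1
      exact h1 hunit
    · rw [← hgen, ofList_three]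
      refine sup_le ?_ (sup_le ?_ (sup_le ?_ bot_le)) <;>
        rw [Ideal.span_singleton_le_iff_mem]
      · rw [← hφ0]; exact Ideal.mem_map_of_mem _ (hX 0)
      · rw [← hφ1]; exact Ideal.mem_map_of_mem _ (hX 1)
      · rw [← hφ2]; exact Ideal.mem_map_of_mem _ (hX 2)
  have hH : IsHausdorff ((maximalIdeal (MvPowerSeries (Fin 3) K)).map φ) C := by
    rw [hmax]; infer_instance
  have hsurj : Function.Surjective φ := by
    refine surjective_of_mk_map_comp_surjective (I := maximalIdeal (MvPowerSeries (Fin 3) K)) φ ?_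
    intro c
    obtain ⟨c, rfl⟩ := Ideal.Quotient.mk_surjective c
    obtain ⟨k, hk⟩ := hf.2 (residue C c)
    refine ⟨MvPowerSeries.C k, ?_⟩
    rw [RingHom.comp_apply, hφC, Ideal.Quotient.eq, hmax, ← residue_eq_zero_iff, map_sub, ← hk]
    exact sub_self _
  have hN : IsNoetherianRing C := isNoetherianRing_of_surjective _ _ φ hsurj
  have hdimC : ringKrullDim C = (3 : ℕ) := by
    rw [n1_ringKrullDim_B (hpar hN)]
    rfl
  have hinj : Function.Injective φ := by
    rw [injective_iff_map_eq_zero]
    intro g hg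
    by_contra hg0
    have h1 := ringKrullDim_succ_le_of_surjective φ hsurj
      (mem_nonZeroDivisors_of_ne_zero hg0) hg
    rw [hdimA, hdimC] at h1
    have h2 : ((3 + 1 : ℕ) : WithBot ℕ∞) ≤ (3 : ℕ) := by exact_mod_cast h1
    have h3 : (3 + 1 : ℕ) ≤ 3 := by exact_mod_cast h2
    omega
  exact ⟨K, iK, hK0, RingEquiv.ofBijective φ ⟨hinj, hsurj⟩, hφ0, hφ1, hφ2⟩

theorem exists_pi (U : Ultrafilter ℕ) (hU : (U : Filter ℕ) ≤ atTop) (B : ℕ → Type)
    [∀ i, CommRing (B i)] [∀ i, IsLocalRing (B i)] [∀ i, IsNoetherianRing (B i)]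
    (x y z : ∀ i, B i) (h : ∀ i, IsPar (B i) [x i, y i, z i])
    (hu : ∀ n : ℕ, n ≠ 0 → ∀ᶠ i in (U : Filter ℕ), IsUnit ((n : ℕ) : B i)) :
    ∃ (F : Type) (_ : Field F) (_ : CharZero F) (π : (∀ i, B i) →+* MvPowerSeries (Fin 3) F),
      π x = MvPowerSeries.X 0 ∧ π y = MvPowerSeries.X 1 ∧ π z = MvPowerSeries.X 2 := by
  have hu' : ∀ n : ℕ, n ≠ 0 → IsUnit ((n : ℕ) : CC U B) := by
    intro n hn
    have h1 : ((n : ℕ) : CC U B) = Ideal.Quotient.mk (JJ U B) ((n : ℕ) : ∀ i, B i) := by
      rw [map_natCast]
    rw [h1]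
    apply isUnit_of_notMem_KK
    rw [mem_KK, ← Ultrafilter.eventually_not]
    filter_upwards [hu n hn] with i hi
    rw [pow_one, mem_maximalIdeal, mem_nonunits_iff, not_not]
    exact hi
  obtain ⟨K, iK, hK, e, e0, e1, e2⟩ := exists_powerSeries_equiv (CC U B)
    (isAdicComplete_CC hU h) hu' _ _ _ (ofList_CC h) (fun hN => isPar_CC h)
  refine ⟨K, iK, hK, (e.symm : CC U B →+* MvPowerSeries (Fin 3) K).comp
    (Ideal.Quotient.mk (JJ U B)), ?_, ?_, ?_⟩
  · exact e.symm_apply_eq.2 e0.symm
  · exact e.symm_apply_eq.2 e1.symm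
  · exact e.symm_apply_eq.2 e2.symm

end Vale.Agent.P190.H455
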