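import Vale.Agent.P190.H455.Rank3
import Vale.Agent.P190.H455.Embed

/-!
# P190: the ranks of the finite free modules with the equations are unbounded as the residue
characteristic of a regular local base ring of dimension three grows
-/

set_option autoImplicit false

open Filter

namespace Vale.Agent.P190.H455

open IsLocalRing RingTheory.Sequence Vale.Agent.P190 Vale.Agent.P190.D

/-- A module with the equations of rank `r` over a ring that maps to a regular local ring of
dimension three in which the positive integers less than `P` are units. -/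
structure Cex (r P : ℕ) where
  B : Type
  [crB : CommRing B]
  B' : Type
  [crB' : CommRing B']
  [locB' : IsLocalRing B']
  [noethB' : IsNoetherianRing B']
  f : B →+* B'
  x : Fin 3 → B
  par : IsPar B' [f (x 0), f (x 1), f (x 2)]
  unit : ∀ q : ℕ, q ≠ 0 → q < P → IsUnit ((q : ℕ) : B')
  R : Type
  [crR : CommRing R]
  [algR : Algebra B R]
  c : r1S → Fin 3 → R
  s : Fin 17 → R
  G : (r1S → Bool) → R
  rel : Rel (fun i => algebraMap B R (x i)) c s G
  M : Type
  [acgM : AddCommGroup M]
  [modRM : Module R M]
  [modBM : Module B M]
  [tower : IsScalarTower B R M]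
  basis : Module.Basis (Fin r) B M

attribute [instance] Cex.crB Cex.crB' Cex.locB' Cex.noethB' Cex.crR Cex.algR Cex.acgM Cex.modRM Cex.modBM
  Cex.tower

section pi

variable {r : ℕ} (D : ∀ i : ℕ, Cex r i)

/-- the product of the base rings -/
def PB : Type := ∀ i, (D i).B

/-- the product of the rings -/
def PR : Type := ∀ i, (D i).R

/-- the product of the modules -/
def PM : Type := ∀ i, (D i).M

noncomputable instance : CommRing (PB D) := inferInstanceAs (CommRing (∀ i, (D i).B))
noncomputable instance : CommRing (PR D) := inferInstanceAs (CommRing (∀ i, (D i).R))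
noncomputable instance : AddCommGroup (PM D) := inferInstanceAs (AddCommGroup (∀ i, (D i).M))
noncomputable instance : Module (PR D) (PM D) :=
  inferInstanceAs (Module (∀ i, (D i).R) (∀ i, (D i).M))
noncomputable instance : Module (PB D) (PM D) :=
  inferInstanceAs (Module (∀ i, (D i).B) (∀ i, (D i).M))

/-- the structure map -/
noncomputable def algP : PB D →+* PR D :=
  RingHom.pi fun i => (algebraMap (D i).B (D i).R).comp (Pi.evalRingHom (fun i => (D i).B) i)

noncomputable instance : Algebra (PB D) (PR D) := (algP D).toAlgebra

theorem algebraMap_P (b : PB D) (i : ℕ) :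
    (algebraMap (PB D) (PR D) b : PR D) i = algebraMap (D i).B (D i).R (b i) := rfl

instance : IsScalarTower (PB D) (PR D) (PM D) := ⟨fun a b m => by
  rw [Algebra.smul_def]
  funext i
  change (algebraMap (D i).B (D i).R (a i) * b i) • m i = a i • b i • m i
  rw [← Algebra.smul_def]
  exact smul_assoc (a i) (b i) (m i)⟩

/-- the product of the modules is free -/
noncomputable def eP : PM D ≃ₗ[PB D] (Fin r → PB D) where
  toFun := fun m j i => (D i).basis.equivFun (m i) j
  map_add' := fun m m' => by
    funext j i
    change (D i).basis.equivFun (m i + m' i) j = _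
    rw [map_add]
    rfl
  map_smul' := fun a m => by
    funext j i
    change (D i).basis.equivFun (a i • m i) j = _
    rw [map_smul]
    rfl
  invFun := fun v i => (D i).basis.equivFun.symm fun j => v j i
  left_inv := fun m => by
    funext i
    exact (D i).basis.equivFun.symm_apply_apply (m i)
  right_inv := fun v => by
    funext j i
    change (D i).basis.equivFun ((D i).basis.equivFun.symm fun j => v j i) j = _
    rw [LinearEquiv.apply_symm_apply]

end pi

theorem rel_ext {ι : Type} {T : ι → Type} [∀ i, CommRing (T i)] {x : Fin 3 → ∀ i, T i}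
    {c : r1S → Fin 3 → ∀ i, T i} {s : Fin 17 → ∀ i, T i} {G : (r1S → Bool) → ∀ i, T i}
    (h : ∀ i, Rel (fun j => x j i) (fun t j => c t j i) (fun a => s a i) (fun ε => G ε i)) :
    Rel x c s G where
  s_b := fun a => funext fun i => (h i).s_b a
  c_sq := fun t j => funext fun i => (h i).c_sq t j
  s_sq := fun a => funext fun i => by
    have h1 := (h i).s_sq a
    simpa [Finset.sum_apply] using h1
  pi_G := fun ε ε' => funext fun i => by
    have h1 := (h i).pi_G ε ε'
    simp only [Pi.mul_apply, Finset.prod_apply]
    convert h1 using 4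
    all_goals (split_ifs <;> rfl)
  G_G := fun ε ε' => funext fun i => by
    have h1 := (h i).G_G ε ε'
    simp only [Pi.mul_apply, Finset.prod_apply]
    convert h1 using 4 <;> split_ifs <;> rfl

theorem no_cex_seq {r : ℕ} (hr : 0 < r) (D : ∀ i : ℕ, Cex r i) : False := by
  classical
  let U : Ultrafilter ℕ := hyperfilter ℕ
  have hU : (U : Filter ℕ) ≤ atTop := Nat.hyperfilter_le_atTop
  let x : Fin 3 → PB D := fun j i => (D i).x j
  let φ : PB D →+* (∀ i, (D i).B') :=
    RingHom.pi fun i => (D i).f.comp (Pi.evalRingHom (fun i => (D i).B) i)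
  obtain ⟨F, iF, hF, π, h0, h1, h2⟩ := exists_pi U hU (fun i => (D i).B')
    (φ (x 0)) (φ (x 1)) (φ (x 2))
    (fun i => (D i).par) (by
      intro n hn
      filter_upwards [hU (eventually_gt_atTop n)] with i hi
      exact (D i).unit n hn hi)
  have hfree : Module.Free (PB D) (PM D) := Module.Free.of_equiv (eP D).symm
  have hfin : Module.Finite (PB D) (PM D) := Module.Finite.equiv (eP D).symm
  have : Nonempty (Fin r) := ⟨⟨0, hr⟩⟩
  have hntB : Nontrivial (PB D) := φ.domain_nontrivial
  have hnt : Nontrivial (PM D) := (eP D).symm.injective.nontrivial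
  have hrel : Rel (fun j => algebraMap (PB D) (PR D) (x j))
      (fun t j => (fun i => (D i).c t j : PR D)) (fun a => (fun i => (D i).s a : PR D))
      (fun ε => (fun i => (D i).G ε : PR D)) :=
    rel_ext (T := fun i => (D i).R) fun i => (D i).rel
  refine no_free F (PB D) (PR D) (π.comp φ) x ?_ _ _ _ hrel (PM D)
  intro j
  fin_cases j
  · exact h0
  · exact h1
  · exact h2

/-- For every `r ≥ 1` there is `P` such that no module with the equations over a regular local ring
of dimension three with residue characteristic zero or at least `P` is free of rank `r`. -/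
theorem exists_no_cex {r : ℕ} (hr : 0 < r) : ∃ P : ℕ, IsEmpty (Cex r P) := by
  by_contra h
  push Not at h
  exact no_cex_seq hr fun i => Classical.choice (h i)

/-- a larger bound is a stronger condition -/
def Cex.mono {r P Q : ℕ} (h : P ≤ Q) (D : Cex r Q) : Cex r P :=
  { D with unit := fun q hq hq2 => D.unit q hq (hq2.trans_le h) }

/-- THE RANK GROWTH THEOREM. -/
theorem rank_growth : ∃ P : ℕ → ℕ, ∀ (r : ℕ) (B B' : Type) [CommRing B] [CommRing B']
    [IsLocalRing B'] [IsNoetherianRing B'] (f : B →+* B') (x : Fin 3 → B),
    IsPar B' [f (x 0), f (x 1), f (x 2)] →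
    (∀ q : ℕ, q ≠ 0 → q < P r → IsUnit ((q : ℕ) : B')) →
    ∀ (R : Type) [CommRing R] [Algebra B R] (c : r1S → Fin 3 → R) (s : Fin 17 → R)
    (G : (r1S → Bool) → R), Rel (fun i => algebraMap B R (x i)) c s G →
    ∀ (M : Type) [AddCommGroup M] [Module R M] [Module B M] [IsScalarTower B R M]
      [Module.Free B M] [Module.Finite B M] [Nontrivial M], r < Module.finrank B M := by
  have h0 : ∀ r : ℕ, ∃ P : ℕ, 0 < r → IsEmpty (Cex r P) := by
    intro r
    by_cases hr : 0 < r
    · obtain ⟨P, hP⟩ := exists_no_cex hr
      exact ⟨P, fun _ => hP⟩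
    · exact ⟨0, fun h => absurd h hr⟩
  choose P0 hP0 using h0
  refine ⟨fun r => ∑ j ∈ Finset.range (r + 1), P0 j, ?_⟩
  intro r B B' _ _ _ _ f x hx hu R _ _ c s G hrel M _ _ _ _ _ _ _
  have hntB : Nontrivial B := f.domain_nontrivial
  by_contra hlt
  push Not at hlt
  have hpos : 0 < Module.finrank B M := by
    have hne : Nonempty (Module.Free.ChooseBasisIndex B M) :=
      (Module.Free.chooseBasis B M).index_nonempty
    rw [Module.finrank_eq_card_chooseBasisIndex]
    exact Fintype.card_pos
  let D : Cex (Module.finrank B M) (P0 (Module.finrank B M)) :=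
    { B := B
      B' := B'
      f := f
      x := x
      par := hx
      unit := fun q hq hq2 => hu q hq (hq2.trans_le
        (Finset.single_le_sum (f := P0) (fun _ _ => Nat.zero_le _)
          (Finset.mem_range.2 (Nat.lt_succ_of_le hlt))))
      R := R
      c := c
      s := s
      G := G
      rel := hrel
      M := M
      basis := Module.finBasis B M }
  exact (hP0 _ hpos).false D

end Vale.Agent.P190.H455
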