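import Vale.Agent.P190.H455.Base
import Mathlib.LinearAlgebra.Dimension.Localization
import Mathlib.FieldTheory.Separable

/-!
# P190: an integrally closed finite extension of bounded rank that receives a given algebra, and
ranks of modules over it
-/

set_option autoImplicit false

namespace Vale.Agent.P190.H455

open Vale.Agent.P190 Vale.Agent.P190.D IsLocalRing RingTheory.Sequence
open scoped nonZeroDivisors TensorProduct

/-- Homomorphisms to algebraically closed fields extend along injective finite maps. -/
theorem exists_ext_hom {A S Ω : Type} [CommRing A] [CommRing S] [Algebra A S] [Module.Finite A S]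
    (hinj : Function.Injective (algebraMap A S)) [Field Ω] [IsAlgClosed Ω] (θ : A →+* Ω) :
    ∃ φ : S →+* Ω, ∀ a, φ (algebraMap A S a) = θ a := by
  have hint : Algebra.IsIntegral A S := Algebra.IsIntegral.of_finite A S
  have hqp : (RingHom.ker θ).IsPrime := RingHom.ker_isPrime θ
  obtain ⟨Q, -, hQp, hQ⟩ := Ideal.exists_ideal_over_prime_of_isIntegral (R := A) (S := S)
    (RingHom.ker θ) ⊥ (by
      intro a ha
      rw [Ideal.mem_comap, Ideal.mem_bot] at ha
      have h1 : a = 0 := hinj (by rw [ha, map_zero])
      rw [h1]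
      exact Ideal.zero_mem _)
  let f : (A ⧸ RingHom.ker θ) →+* (S ⧸ Q) := Ideal.quotientMap Q (algebraMap A S) hQ.ge
  have hf : Function.Injective f := Ideal.quotientMap_injective' hQ.le
  let _ : Algebra (A ⧸ RingHom.ker θ) (S ⧸ Q) := f.toAlgebra
  let θ1 : (A ⧸ RingHom.ker θ) →+* Ω := RingHom.kerLift θ
  have hθ1 : Function.Injective θ1 := RingHom.kerLift_injective θ
  let _ : Algebra (A ⧸ RingHom.ker θ) Ω := θ1.toAlgebra
  have hd1 : IsDomain (A ⧸ RingHom.ker θ) := inferInstance
  have hd2 : IsDomain (S ⧸ Q) := inferInstance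
  have hfint : Algebra.IsIntegral (A ⧸ RingHom.ker θ) (S ⧸ Q) := by
    refine ⟨fun s => ?_⟩
    obtain ⟨s, rfl⟩ := Ideal.Quotient.mk_surjective s
    obtain ⟨p, hp, hp2⟩ := hint.isIntegral s
    refine ⟨p.map (Ideal.Quotient.mk (RingHom.ker θ)), hp.map _, ?_⟩
    rw [Polynomial.eval₂_map]
    have h1 : (algebraMap (A ⧸ RingHom.ker θ) (S ⧸ Q)).comp
        (Ideal.Quotient.mk (RingHom.ker θ)) =
        (Ideal.Quotient.mk Q).comp (algebraMap A S) := by
      ext a
      rfl
    rw [h1, ← Polynomial.hom_eval₂, hp2, map_zero]
  have ht1 : Module.IsTorsionFree (A ⧸ RingHom.ker θ) (S ⧸ Q) :=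
    Module.isTorsionFree_iff_algebraMap_injective.2 hf
  have ht2 : Module.IsTorsionFree (A ⧸ RingHom.ker θ) Ω :=
    Module.isTorsionFree_iff_algebraMap_injective.2 hθ1
  have halg : Algebra.IsAlgebraic (A ⧸ RingHom.ker θ) (S ⧸ Q) := inferInstance
  let φ1 : (S ⧸ Q) →ₐ[A ⧸ RingHom.ker θ] Ω := IsAlgClosed.lift
  refine ⟨(φ1 : (S ⧸ Q) →+* Ω).comp (Ideal.Quotient.mk Q), fun a => ?_⟩
  have h1 : φ1 (algebraMap (A ⧸ RingHom.ker θ) (S ⧸ Q) (Ideal.Quotient.mk _ a)) =
      algebraMap (A ⧸ RingHom.ker θ) Ω (Ideal.Quotient.mk _ a) := φ1.commutes _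
  exact h1

/-- A finite extension of degree less than the characteristic is separable. -/
theorem isSeparable_of_finrank_le {F L : Type} [Field F] [Field L] [Algebra F L]
    [FiniteDimensional F L] (N : ℕ) (hN : Module.finrank F L ≤ N)
    (hchar : ∀ q : ℕ, q ≠ 0 → q ≤ N → ((q : ℕ) : F) ≠ 0) : Algebra.IsSeparable F L := by
  refine ⟨fun x => ?_⟩
  have hx : IsIntegral F x := Algebra.IsIntegral.isIntegral x
  have hirr := minpoly.irreducible hx
  change (minpoly F x).Separable
  rw [Polynomial.separable_iff_derivative_ne_zero hirr]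
  intro h0
  have h1 := minpoly.natDegree_pos hx
  have h2 : (minpoly F x).natDegree ≤ N := (minpoly.natDegree_le x).trans hN
  have h3 := congrArg (fun p => Polynomial.coeff p ((minpoly F x).natDegree - 1)) h0
  simp only [Polynomial.coeff_derivative, Polynomial.coeff_zero] at h3
  rw [Nat.sub_add_cancel h1, Polynomial.coeff_natDegree, (minpoly.monic hx).leadingCoeff,
    one_mul] at h3
  have h4 : (((minpoly F x).natDegree - 1 : ℕ) : F) + 1 = (((minpoly F x).natDegree : ℕ) : F) := by
    rw [← Nat.cast_add_one, Nat.sub_add_cancel h1]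
  rw [h4] at h3
  exact hchar _ (by omega) h2 h3

/-- the image of a finite module generates a field of bounded degree -/
theorem exists_field {A S F Ω : Type} [CommRing A] [CommRing S] [Algebra A S] [Field F] [Field Ω]
    [Algebra F Ω] (θ : A →+* F) (φ : S →+* Ω)
    (hφ : ∀ a, φ (algebraMap A S a) = algebraMap F Ω (θ a)) (g : Finset S)
    (hg : Submodule.span A (g : Set S) = ⊤) :
    ∃ L : IntermediateField F Ω, (∀ s, φ s ∈ L) ∧ FiniteDimensional F L ∧
      Module.finrank F L ≤ g.card := by
  classical
  let W : Submodule F Ω := Submodule.span F ((g.image φ : Finset Ω) : Set Ω)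
  have hWf : FiniteDimensional F W := FiniteDimensional.span_finset F _
  have hW : ∀ s, φ s ∈ W := by
    intro s
    have hs : s ∈ Submodule.span A (g : Set S) := by rw [hg]; trivial
    induction hs using Submodule.span_induction with
    | mem y hy =>
      apply Submodule.subset_span
      rw [Finset.coe_image]
      exact ⟨y, hy, rfl⟩
    | zero => rw [map_zero]; exact W.zero_mem
    | add y z _ _ hy hz => rw [map_add]; exact W.add_mem hy hz
    | smul a y _ hy =>
      rw [Algebra.smul_def, map_mul, hφ, ← Algebra.smul_def]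
      exact W.smul_mem _ hy
  have hmul : ∀ x y, x ∈ W → y ∈ W → x * y ∈ W := by
    intro x y hx hy
    have h1 : W * W ≤ W := by
      change Submodule.span F _ * Submodule.span F _ ≤ _
      rw [Submodule.span_mul_span, Submodule.span_le]
      rintro _ ⟨u, hu, v, hv, rfl⟩
      rw [Finset.coe_image] at hu hv
      obtain ⟨u', -, rfl⟩ := hu
      obtain ⟨v', -, rfl⟩ := hv
      change φ u' * φ v' ∈ W
      rw [← map_mul]
      exact hW _
    exact h1 (Submodule.mul_mem_mul hx hy)
  have hone : (1 : Ω) ∈ W := by rw [← map_one φ]; exact hW 1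
  let T : Subalgebra F Ω := W.toSubalgebra hone hmul
  have hTW : Subalgebra.toSubmodule T = W := Submodule.toSubalgebra_toSubmodule W hone hmul
  have hTf : FiniteDimensional F T := by
    change FiniteDimensional F (Subalgebra.toSubmodule T)
    rw [hTW]
    exact hWf
  let L : IntermediateField F Ω :=
    { T with
      inv_mem' := fun x hx => by
        have h1 : IsAlgebraic F ((⟨x, hx⟩ : T) : Ω) := by
          have h2 : IsIntegral F (⟨x, hx⟩ : T) := Algebra.IsIntegral.isIntegral _
          exact (h2.map T.val).isAlgebraic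
        exact Subalgebra.inv_mem_of_algebraic T (x := (⟨x, hx⟩ : T)) h1 }
  have hLf : FiniteDimensional F L := hTf
  refine ⟨L, fun s => hW s, hLf, ?_⟩
  have h1 : Module.finrank F L = Module.finrank F W := by
    change Module.finrank F T = _
    rw [← Subalgebra.finrank_toSubmodule, hTW]
  rw [h1]
  exact (finrank_span_finset_le_card _).trans Finset.card_image_le

/-- the bound for the rank of modules over the extension -/
theorem finrank_le_mul {B F R L : Type} [CommRing B] [IsDomain B] [Field F] [Algebra B F]
    [IsFractionRing B F] [CommRing R] [IsDomain R] [Algebra B R] [Algebra.IsIntegral B R]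
    [Field L] [Algebra R L] [IsFractionRing R L] [Algebra F L] [Algebra B L]
    [IsScalarTower B R L] [IsScalarTower B F L] [FiniteDimensional F L]
    (M : Type) [AddCommGroup M] [Module R M] [Module B M] [IsScalarTower B R M]
    [Module.Finite R M] [Module.Free B M] :
    Module.finrank B M ≤ Module.finrank F L * Module.finrank R M := by
  let V : Type := L ⊗[R] M
  let ι : M →ₗ[R] V := TensorProduct.mk R L M 1
  have hι : Function.Injective ι := by
    have hloc : IsLocalizedModule R⁰ ι :=
      (isLocalizedModule_iff_isBaseChange R⁰ L ι).2 (TensorProduct.isBaseChange R M L)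
    rw [injective_iff_map_eq_zero]
    intro m hm
    obtain ⟨s, hs⟩ := (IsLocalizedModule.eq_zero_iff R⁰ ι).1 hm
    have halg : Algebra.IsAlgebraic B R := inferInstance
    obtain ⟨c, d, hd, hcd⟩ := Algebra.IsAlgebraic.exists_smul_eq_mul (R := B) (1 : R)
      (nonZeroDivisors.ne_zero s.2)
    have h1 : d • m = 0 := by
      have h2 : d • m = (d • (1 : R)) • m := by rw [smul_assoc, one_smul]
      rw [h2, hcd, mul_comm, mul_smul]
      have h3 : (s : R) • m = 0 := hs
      rw [h3, smul_zero]
    exact (smul_eq_zero.1 h1).resolve_left hd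
  have hfinV : Module.Finite L V := inferInstance
  have hst1 : IsScalarTower F L V := inferInstance
  have hfinV' : Module.Finite F V := Module.Finite.trans L V
  have hst2 : IsScalarTower B F V := inferInstance
  have h1 : Module.rank B M ≤ Module.rank B V :=
    LinearMap.rank_le_of_injective (ι.restrictScalars B) hι
  have h2 : Module.rank F V = Module.rank B V := IsLocalization.rank_eq F B⁰ le_rfl
  have h3 : Module.finrank B M ≤ Module.finrank F V := by
    unfold Module.finrank
    rw [← h2] at h1
    exact Cardinal.toNat_le_toNat h1 (Module.rank_lt_aleph0 F V)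
  have h4 : Module.finrank F L * Module.finrank L V = Module.finrank F V :=
    Module.finrank_mul_finrank F L V
  have hfs : FaithfulSMul R L := (faithfulSMul_iff_algebraMap_injective R L).2
    (IsFractionRing.injective R L)
  have h5 : Module.finrank L V = Module.finrank R M :=
    IsBaseChange.finrank_eq (TensorProduct.isBaseChange R M L)
  rw [← h5, h4]
  exact h3

end Vale.Agent.P190.H455
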