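import Vale.Agent.P190.H455.Rank4
import Vale.Agent.P190.H455.Rank5
import Mathlib.RingTheory.Localization.Finiteness
import Mathlib.RingTheory.Algebraic.Integral

/-!
# P190: the integrally closed extension with bounded rank
-/

set_option autoImplicit false

namespace Vale.Agent.P190.H455

open Vale.Agent.P190.D (IsPar)
open IsLocalRing RingTheory.Sequence
open scoped nonZeroDivisors TensorProduct

/-- `exists_field` with an abstract field -/
theorem exists_field' {A S K : Type} [CommRing A] [CommRing S] [Algebra A S] [Module.Finite A S]
    (hinj : Function.Injective (algebraMap A S)) [Field K] (θ : A →+* K) (g : Finset S)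
    (hg : Submodule.span A (g : Set S) = ⊤) :
    ∃ (L : Type) (_ : Field L) (_ : Algebra K L) (φ : S →+* L), FiniteDimensional K L ∧
      Module.finrank K L ≤ g.card ∧ ∀ a, φ (algebraMap A S a) = algebraMap K L (θ a) := by
  obtain ⟨φ, hφ⟩ := exists_ext_hom hinj ((algebraMap K (AlgebraicClosure K)).comp θ)
  obtain ⟨L, hL, hf, hr⟩ := exists_field θ φ hφ g hg
  refine ⟨L, inferInstance, inferInstance,
    { toFun := fun s => ⟨φ s, hL s⟩
      map_zero' := Subtype.ext (map_zero φ)
      map_one' := Subtype.ext (map_one φ)
      map_add' := fun x y => Subtype.ext (map_add φ x y)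
      map_mul' := fun x y => Subtype.ext (map_mul φ x y) }, hf, hr, fun a => ?_⟩
  exact Subtype.ext (hφ a)

/-- The integrally closed finite extension `R` of `B` that contains `E`, receives `S` and has
rank at most `g.card` over `E`; ranks of modules over it. -/
theorem exists_normal_aux {A B S E : Type} (K : Type) [CommRing A] [CommRing B] [IsDomain B]
    [IsIntegrallyClosed B] [IsNoetherianRing B] (θ : A →+* B) [CommRing S] [Algebra A S]
    [Module.Finite A S] (hinj : Function.Injective (algebraMap A S)) (g : Finset S)
    (hg : Submodule.span A (g : Set S) = ⊤) [CommRing E] [IsDomain E] [Algebra B E]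
    [Module.Finite B E] (hinjE : Function.Injective (algebraMap B E)) [Field K] [Algebra E K]
    [IsFractionRing E K]
    (hchar : ∀ q : ℕ, q ≠ 0 → q ≤ Module.finrank B E * g.card → ((q : ℕ) : B) ≠ 0) :
    ∃ (R : Type) (_ : CommRing R) (_ : IsDomain R) (_ : Algebra E R) (_ : Algebra B R)
      (_ : IsScalarTower B E R) (ψ : S →+* R),
      Module.Finite B R ∧ IsIntegrallyClosed R ∧ Function.Injective (algebraMap E R) ∧
      Module.finrank E R ≤ g.card ∧ (∀ a, ψ (algebraMap A S a) = algebraMap B R (θ a)) ∧
      ∀ (M : Type) [AddCommGroup M] [Module R M] [Module B M] [IsScalarTower B R M]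
        [Module.Finite R M] [Module.Free B M],
        Module.finrank B M ≤ Module.finrank B R * Module.finrank R M := by
  classical
  let F : Type := FractionRing B
  have hEint : Algebra.IsIntegral B E := Algebra.IsIntegral.of_finite B E
  have hEK : Function.Injective (algebraMap E K) := IsFractionRing.injective E K
  let _ : Algebra B K := ((algebraMap E K).comp (algebraMap B E)).toAlgebra
  have t1 : IsScalarTower B E K := IsScalarTower.of_algebraMap_eq fun _ => rfl
  have hBK : Function.Injective (algebraMap B K) := hEK.comp hinjE
  have hfs : FaithfulSMul B K := (faithfulSMul_iff_algebraMap_injective B K).2 hBK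
  have hfs2 : FaithfulSMul B E := (faithfulSMul_iff_algebraMap_injective B E).2 hinjE
  let _ : Algebra F K := FractionRing.liftAlgebra B K
  have t2 : IsScalarTower B F K := FractionRing.isScalarTower_liftAlgebra B K
  have halgE : Algebra.IsAlgebraic B E := inferInstance
  have hFK : FiniteDimensional F K := Module.Finite.of_isLocalization B E B⁰
  obtain ⟨L, fL, aKL, φ, hKL, hrank, hφ⟩ := exists_field' hinj ((algebraMap B K).comp θ) g hg
  let _ : Algebra F L := ((algebraMap K L).comp (algebraMap F K)).toAlgebra
  have t3 : IsScalarTower F K L := IsScalarTower.of_algebraMap_eq fun _ => rfl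
  have hFL : FiniteDimensional F L := Module.Finite.trans K L
  let _ : Algebra B L := ((algebraMap K L).comp (algebraMap B K)).toAlgebra
  have t4 : IsScalarTower B K L := IsScalarTower.of_algebraMap_eq fun _ => rfl
  have t5 : IsScalarTower B F L := IsScalarTower.of_algebraMap_eq fun b => by
    change algebraMap K L (algebraMap B K b) = algebraMap K L (algebraMap F K (algebraMap B F b))
    rw [← IsScalarTower.algebraMap_apply B F K]
  let _ : Algebra E L := ((algebraMap K L).comp (algebraMap E K)).toAlgebra
  have t6 : IsScalarTower E K L := IsScalarTower.of_algebraMap_eq fun _ => rfl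
  have t7 : IsScalarTower B E L := IsScalarTower.of_algebraMap_eq fun _ => rfl
  have hKLi : Function.Injective (algebraMap K L) := (algebraMap K L).injective
  have hBL : Function.Injective (algebraMap B L) := hKLi.comp hBK
  have hEL : Function.Injective (algebraMap E L) := hKLi.comp hEK
  have hFKr : Module.finrank F K = Module.finrank B E := IsFractionRing.finrank_eq B F E K
  have hFLr : Module.finrank F L ≤ Module.finrank B E * g.card := by
    rw [← Module.finrank_mul_finrank F K L, hFKr]
    exact Nat.mul_le_mul_left _ hrank
  have hsep : Algebra.IsSeparable F L := isSeparable_of_finrank_le _ hFLr (by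
    intro q hq hq2 h0
    apply hchar q hq hq2
    have h1 : algebraMap B F ((q : ℕ) : B) = 0 := by rw [map_natCast]; exact h0
    exact (map_eq_zero_iff _ (IsFractionRing.injective B F)).1 h1)
  let R : Type := integralClosure B L
  let _ : CommRing R := inferInstanceAs (CommRing (integralClosure B L))
  let _ : Algebra B R := inferInstanceAs (Algebra B (integralClosure B L))
  let _ : Algebra R L := inferInstanceAs (Algebra (integralClosure B L) L)
  have hdom : IsDomain R := inferInstanceAs (IsDomain (integralClosure B L))
  have hfin : Module.Finite B R := IsIntegralClosure.finite B F L (integralClosure B L)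
  have hic : IsIntegrallyClosed R := integralClosure.isIntegrallyClosedOfFiniteExtension F
  have hfr : IsFractionRing R L := integralClosure.isFractionRing_of_finite_extension F L
  have t8 : IsScalarTower B R L := inferInstanceAs (IsScalarTower B (integralClosure B L) L)
  let χ : E →+* R :=
    { toFun := fun x => ⟨algebraMap E L x,
        (hEint.isIntegral x).map (IsScalarTower.toAlgHom B E L)⟩
      map_zero' := Subtype.ext (map_zero (algebraMap E L))
      map_one' := Subtype.ext (map_one (algebraMap E L))
      map_add' := fun x y => Subtype.ext (map_add (algebraMap E L) x y)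
      map_mul' := fun x y => Subtype.ext (map_mul (algebraMap E L) x y) }
  let _ : Algebra E R := χ.toAlgebra
  have t9 : IsScalarTower E R L := IsScalarTower.of_algebraMap_eq fun _ => rfl
  have t10 : IsScalarTower B E R := IsScalarTower.of_algebraMap_eq fun b =>
    Subtype.ext (IsScalarTower.algebraMap_apply B E L b)
  have hχ : Function.Injective (algebraMap E R) := fun x y hxy =>
    hEL (congrArg (algebraMap R L) hxy)
  have hφint : ∀ s, IsIntegral B (φ s) := by
    intro s
    obtain ⟨p, hp, hp2⟩ := (Algebra.IsIntegral.of_finite A S).isIntegral s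
    refine ⟨p.map θ, hp.map θ, ?_⟩
    rw [Polynomial.eval₂_map]
    have h1 : (algebraMap B L).comp θ = φ.comp (algebraMap A S) := by
      ext a
      exact (hφ a).symm
    rw [h1, ← Polynomial.hom_eval₂, hp2, map_zero]
  let ψ : S →+* R :=
    { toFun := fun x => ⟨φ x, hφint x⟩
      map_zero' := Subtype.ext (map_zero φ)
      map_one' := Subtype.ext (map_one φ)
      map_add' := fun x y => Subtype.ext (map_add φ x y)
      map_mul' := fun x y => Subtype.ext (map_mul φ x y) }
  have hinjR : Function.Injective (algebraMap B R) := fun x y hxy =>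
    hBL (congrArg (algebraMap R L) hxy)
  refine ⟨R, inferInstance, hdom, inferInstance, inferInstance, t10, ψ, hfin, hic, hχ, ?_,
    fun a => Subtype.ext (hφ a), ?_⟩
  · rw [← IsFractionRing.finrank_eq E K R L]
    exact hrank
  · intro M _ _ _ _ _ _
    have hRint : Algebra.IsIntegral B R := Algebra.IsIntegral.of_finite B R
    have h1 := finrank_le_mul (B := B) (F := F) (R := R) (L := L) M
    rwa [IsFractionRing.finrank_eq B F R L] at h1

theorem exists_normal {A B S E : Type} [CommRing A] [CommRing B] [IsDomain B]
    [IsIntegrallyClosed B] [IsNoetherianRing B] (θ : A →+* B) [CommRing S] [Algebra A S]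
    [Module.Finite A S] (hinj : Function.Injective (algebraMap A S)) (g : Finset S)
    (hg : Submodule.span A (g : Set S) = ⊤) [CommRing E] [IsDomain E] [Algebra B E]
    [Module.Finite B E] (hinjE : Function.Injective (algebraMap B E))
    (hchar : ∀ q : ℕ, q ≠ 0 → q ≤ Module.finrank B E * g.card → ((q : ℕ) : B) ≠ 0) :
    ∃ (R : Type) (_ : CommRing R) (_ : IsDomain R) (_ : Algebra E R) (_ : Algebra B R)
      (_ : IsScalarTower B E R) (ψ : S →+* R),
      Module.Finite B R ∧ IsIntegrallyClosed R ∧ Function.Injective (algebraMap E R) ∧
      Module.finrank E R ≤ g.card ∧ (∀ a, ψ (algebraMap A S a) = algebraMap B R (θ a)) ∧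
      ∀ (M : Type) [AddCommGroup M] [Module R M] [Module B M] [IsScalarTower B R M]
        [Module.Finite R M] [Module.Free B M],
        Module.finrank B M ≤ Module.finrank B R * Module.finrank R M :=
  exists_normal_aux (FractionRing E) θ hinj g hg hinjE hchar

/-- The quotient of a regular local ring of dimension at least three by all but three parameters. -/
theorem isPar_quot {B : Type} [CommRing B] [IsLocalRing B] [IsNoetherianRing B] {x y z : B}
    {ys : List B} (h : IsPar B (x :: y :: z :: ys)) :
    ∃ (_ : IsLocalRing (B ⧸ Ideal.ofList ys)), IsPar (B ⧸ Ideal.ofList ys)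
      [Ideal.Quotient.mk _ x, Ideal.Quotient.mk _ y, Ideal.Quotient.mk _ z] := by
  have hm : ∀ r ∈ x :: y :: z :: ys, r ∈ maximalIdeal B := by
    intro r hr
    rw [← h.gen]
    exact Ideal.subset_span hr
  have hle : Ideal.ofList ys ≤ maximalIdeal B := by
    unfold Ideal.ofList
    rw [Ideal.span_le]
    intro r hr
    exact hm r (by
      have hr' : r ∈ ys := hr
      simp [hr'])
  have hnt : Nontrivial (B ⧸ Ideal.ofList ys) := Ideal.Quotient.nontrivial_iff.2
    (ne_top_of_le_ne_top (maximalIdeal.isMaximal B).ne_top hle)
  have hloc : IsLocalRing (B ⧸ Ideal.ofList ys) :=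
    IsLocalRing.of_surjective' (Ideal.Quotient.mk (Ideal.ofList ys)) Ideal.Quotient.mk_surjective
  refine ⟨hloc, ?_, ?_⟩
  · have hperm : List.Perm (x :: y :: z :: ys) (ys ++ [x, y, z]) := by
      change List.Perm ([x, y, z] ++ ys) (ys ++ [x, y, z])
      exact List.perm_append_comm
    have h1 : IsWeaklyRegular B (ys ++ [x, y, z]) :=
      IsLocalRing.isWeaklyRegular_of_perm_of_subset_maximalIdeal h.reg hperm hm
    have h2 := ((isWeaklyRegular_append_iff B ys [x, y, z]).1 h1).2
    have e0 : (Ideal.ofList ys • ⊤ : Submodule B B) = Ideal.ofList ys := by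
      rw [smul_eq_mul, ← Ideal.one_eq_top, mul_one]
    have h3 : IsWeaklyRegular (B ⧸ Ideal.ofList ys) [x, y, z] :=
      ((Submodule.quotEquivOfEq _ _ e0).isWeaklyRegular_congr _).1 h2
    exact (isWeaklyRegular_map_algebraMap_iff (B ⧸ Ideal.ofList ys) (B ⧸ Ideal.ofList ys)
      [x, y, z]).2 h3
  · have h1 : maximalIdeal (B ⧸ Ideal.ofList ys) =
        (maximalIdeal B).map (Ideal.Quotient.mk (Ideal.ofList ys)) :=
      (IsLocalRing.map_maximalIdeal_of_surjective _ Ideal.Quotient.mk_surjective).symm
    rw [h1, ← h.gen, ofList_three, Ideal.ofList_cons x, Ideal.ofList_cons y, Ideal.ofList_cons z,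
      Ideal.map_sup, Ideal.map_sup, Ideal.map_sup, Ideal.map_quotient_self, Ideal.map_span,
      Ideal.map_span, Ideal.map_span, Set.image_singleton, Set.image_singleton,
      Set.image_singleton]

end Vale.Agent.P190.H455
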