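import Mathlib.RingTheory.KrullDimension.Basic
import Mathlib.RingTheory.LocalRing.MaximalIdeal.Basic
import Mathlib.RingTheory.Regular.RegularSequence

/-!
# P190: small Cohen-Macaulay modules
-/

namespace Vale.Agent.P190.H455

universe v

/-- `M` is a small (maximal) Cohen-Macaulay module over the local ring `R`: it is finitely
generated and some `M`-regular sequence in the maximal ideal has length `dim R`. -/
def SmallCM (R : Type) [CommRing R] [IsLocalRing R] (M : Type v) [AddCommGroup M] [Module R M] :
    Prop :=
  Module.Finite R M ∧ ∃ rs : List R, (∀ r ∈ rs, r ∈ IsLocalRing.maximalIdeal R) ∧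
    RingTheory.Sequence.IsRegular M rs ∧ ((rs.length : ℕ) : WithBot ℕ∞) = ringKrullDim R

end Vale.Agent.P190.H455
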