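import Vale.Agent.P190.H455.Rank6
import Vale.Agent.P190.H455.Cohen
import Vale.Agent.P190.H455.RankDefs

/-!
# P190: the ranks of small Cohen-Macaulay modules are unbounded as the residue characteristic grows
-/

set_option autoImplicit false

namespace Vale.Agent.P190.H455

open Vale.Agent.P190.D (IsPar n2_isLocalRing n1_ringKrullDim n1_free_of_isSmallCM)
open Vale.Agent.P190 (isAdicComplete_of_finite_local isIntegrallyClosed_of_archDiv)
open IsLocalRing RingTheory.Sequence

universe v

/-- In any universe, a small Cohen-Macaulay module is isomorphic to one in `Type`. -/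
theorem SmallCM.exists_type {R : Type} [CommRing R] [IsLocalRing R] {M : Type v}
    [AddCommGroup M] [Module R M] (h : SmallCM R M) :
    ∃ (M' : Type) (_ : AddCommGroup M') (_ : Module R M'), Vale.Agent.P190.IsSmallCM R M' ∧
      Module.finrank R M' = Module.finrank R M := by
  obtain ⟨hf, rs, h1, h2, h3⟩ := h
  obtain ⟨n, f, hsurj⟩ := Module.Finite.exists_fin' R M
  let e : ((Fin n → R) ⧸ LinearMap.ker f) ≃ₗ[R] M := f.quotKerEquivOfSurjective hsurj
  exact ⟨(Fin n → R) ⧸ LinearMap.ker f, inferInstance, inferInstance,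
    ⟨inferInstance, rs, h1, (LinearEquiv.isRegular_congr e _).2 h2, h3⟩, e.finrank_eq⟩

theorem main_rank : ∃ (N : ℕ) (P : ℕ → ℕ → ℕ), ∀ (B : Type) [CommRing B] [IsRegularLocalRing B]
    [IsAdicComplete (maximalIdeal B) B] (d : ℕ), 3 ≤ d → ringKrullDim B = (d : ℕ) →
    ∀ (p : ℕ) [CharP (ResidueField B) p] (E : Type) [CommRing E] [IsDomain E] [Algebra B E]
    [Module.Finite B E], Function.Injective (algebraMap B E) →
    (p = 0 ∨ P (Module.finrank B E) 0 ≤ p) →
    ∃ (R : Type) (_ : CommRing R) (_ : IsDomain R) (_ : IsLocalRing R) (_ : Algebra E R),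
      Module.Finite E R ∧ Function.Injective (algebraMap E R) ∧ Module.finrank E R ≤ N ∧
      IsNoetherianRing R ∧ IsIntegrallyClosed R ∧ IsAdicComplete (maximalIdeal R) R ∧
      ringKrullDim R = (d : ℕ) ∧
      ∀ r : ℕ, (p = 0 ∨ P (Module.finrank B E) r ≤ p) →
        ∀ (M : Type v) [AddCommGroup M] [Module R M], SmallCM R M → r < Module.finrank R M := by
  obtain ⟨S, s1, s2, s3, hfinS, hinjS, c, s, G, hrel⟩ := exists_S
  obtain ⟨g, hg⟩ := Module.Finite.fg_top (R := Z3) (M := S)
  obtain ⟨P0, hP0⟩ := rank_growth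
  refine ⟨g.card, fun D r => P0 (D * g.card * r) + D * g.card + 1, ?_⟩
  intro B _ _ hB d hd hdim p _ E _ _ _ _ hinjE hp
  have hgood := goodBase_regular B hB d hdim
  have i1 := hgood.dom
  have hic : IsIntegrallyClosed B := isIntegrallyClosed_of_archDiv B hgood.arch
  obtain ⟨xs, hlen, hpar⟩ := hgood.par
  obtain ⟨x, y, z, ys, rfl⟩ : ∃ (x y z : B) (ys : List B), xs = x :: y :: z :: ys := by
    match xs, hlen with
    | [], h => simp at h; omega
    | [x], h => simp at h; omega
    | [x, y], h => simp at h; omega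
    | x :: y :: z :: ys, _ => exact ⟨x, y, z, ys, rfl⟩
  have hunit : ∀ Q : ℕ, (p = 0 ∨ Q ≤ p) → ∀ q : ℕ, q ≠ 0 → q < Q → IsUnit ((q : ℕ) : B) := by
    intro Q hQ q hq hq2
    by_contra hu
    have h1 : residue B ((q : ℕ) : B) = 0 :=
      (residue_eq_zero_iff _).2 ((mem_maximalIdeal _).2 hu)
    rw [map_natCast, CharP.cast_eq_zero_iff (ResidueField B) p] at h1
    rcases hQ with rfl | hQ
    · exact hq (Nat.eq_zero_of_zero_dvd h1)
    · exact absurd (Nat.le_of_dvd (Nat.pos_of_ne_zero hq) h1) (by omega)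
  let θ : Z3 →+* B := MvPolynomial.eval₂Hom (Int.castRingHom B) ![x, y, z]
  have hθX : ∀ i, θ (MvPolynomial.X i) = ![x, y, z] i := fun i => MvPolynomial.eval₂Hom_X' _ _ _
  obtain ⟨R, r1, r2, r3, r4, r5, ψ, hfin, hnorm, hinjR, hrk, hψ, hM⟩ :=
    exists_normal θ hinjS g hg hinjE (by
      intro q hq hq2 h0
      have h1 := hunit _ hp q hq (by
        change q < P0 (Module.finrank B E * g.card * 0) + Module.finrank B E * g.card + 1
        omega)
      rw [h0] at h1
      exact not_isUnit_zero h1)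
  have hinjBR : Function.Injective (algebraMap B R) := by
    rw [IsScalarTower.algebraMap_eq B E R]
    exact hinjR.comp hinjE
  have hloc : IsLocalRing R := n2_isLocalRing (B := B) hB
  have hdimR : ringKrullDim R = (d : ℕ) := by
    rw [n1_ringKrullDim hpar hinjBR, hlen]
  have hfinE : Module.Finite E R := Module.Finite.of_restrictScalars_finite B E R
  have hrelR := hrel.map ψ
  simp only [hψ, hθX] at hrelR
  refine ⟨R, r1, r2, hloc, inferInstance, hfinE, hinjR, hrk, IsNoetherianRing.of_finite B R,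
    hnorm, isAdicComplete_of_finite_local (A := B) hB, hdimR, ?_⟩
  intro r hr M _ _ hcm
  obtain ⟨M', m1, m2, hcm', hrkM⟩ := hcm.exists_type
  rw [← hrkM]
  let _ : Module B M' := Module.compHom M' (algebraMap B R)
  have hst : IsScalarTower B R M' :=
    ⟨fun a b m => by rw [Algebra.smul_def, mul_smul]; rfl⟩
  obtain ⟨hf1, hf2⟩ := n1_free_of_isSmallCM hpar hinjBR M' hcm'
  obtain ⟨hf3, rs, -, hreg, -⟩ := hcm'
  have hnt : Nontrivial M' := hreg.nontrivial
  obtain ⟨hloc', hpar'⟩ := isPar_quot hpar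
  have h1 := hP0 (Module.finrank B E * g.card * r) B (B ⧸ Ideal.ofList ys)
    (Ideal.Quotient.mk (Ideal.ofList ys)) ![x, y, z] hpar' (by
      intro q hq hq2
      rw [← map_natCast (Ideal.Quotient.mk (Ideal.ofList ys))]
      refine (hunit _ hr q hq ?_).map _
      change q < P0 (Module.finrank B E * g.card * r) + Module.finrank B E * g.card + 1
      omega) R _ _ _ hrelR M'
  have h2 := hM M'
  have hfsE : FaithfulSMul E R := (faithfulSMul_iff_algebraMap_injective E R).2 hinjR
  have h3 : Module.finrank B R ≤ Module.finrank B E * g.card := by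
    rw [← Module.finrank_mul_finrank' (R := B) (S := E) R]
    exact Nat.mul_le_mul_left _ hrk
  have h4 : Module.finrank B E * g.card * r <
      Module.finrank B E * g.card * Module.finrank R M' :=
    h1.trans_le (h2.trans (Nat.mul_le_mul_right _ h3))
  exact lt_of_mul_lt_mul_left h4 (Nat.zero_le _)

end Vale.Agent.P190.H455
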