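import Vale.Agent.P190.H455.Embed

/-!
# P190: one domain, module-finite over `ℤ[x₁,x₂,x₃]`, without finite free modules after any base
change to a ring over a power series ring in three variables over a field of characteristic zero
-/

set_option autoImplicit false

namespace Vale.Agent.P190.H455

open Vale.Agent.P190.D

/-- THE UNIVERSAL FORM OF THE CORE THEOREM. -/
theorem exists_univ : ∃ (S : Type) (_ : CommRing S) (_ : IsDomain S)
    (_ : Algebra (MvPolynomial (Fin 3) ℤ) S),
    Module.Finite (MvPolynomial (Fin 3) ℤ) S ∧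
    Function.Injective (algebraMap (MvPolynomial (Fin 3) ℤ) S) ∧
    ∀ (F : Type) [Field F] [CharZero F] (A : Type) [CommRing A]
      (π : A →+* MvPowerSeries (Fin 3) F) (y : Fin 3 → A), (∀ i, π (y i) = MvPowerSeries.X i) →
      ∀ (R : Type) [CommRing R] [Algebra A R] (g : S →+* R),
      (∀ i, g (algebraMap (MvPolynomial (Fin 3) ℤ) S (MvPolynomial.X i)) = algebraMap A R (y i)) →
      ∀ (M : Type) [AddCommGroup M] [Module R M] [Module A M] [IsScalarTower A R M]
        [Module.Free A M] [Module.Finite A M], Subsingleton M := by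
  obtain ⟨S, i1, i2, i3, hfin, hinj, c, s, G, h⟩ := exists_S
  refine ⟨S, i1, i2, i3, hfin, hinj, ?_⟩
  intro F _ _ A _ π y hy R _ _ g hg M _ _ _ _ _ _
  by_contra hM
  have hnt : Nontrivial M := not_subsingleton_iff_nontrivial.1 hM
  have h1 := h.map g
  simp only [hg] at h1
  exact no_free F A R π y hy _ _ _ h1 M

end Vale.Agent.P190.H455
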